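import Mathlib

/-!
P227: log-concavity in logarithmic variables of central sections of boxes
(bodies with d+1 facet pairs). Definitions and pinned interfaces; proof in notes/P227-helper2-proof.md.
-/

namespace Vale.Agent.P227.Pairs

open MeasureTheory Finset
open scoped BigOperators

/-- sign of a Boolean -/
def sg (b : Bool) : ℝ := if b then 1 else -1

/-- `x_+^p / p!`, with the convention that it vanishes for `x ≤ 0` also when `p = 0`. -/
noncomputable def pp (p : ℕ) (x : ℝ) : ℝ := if 0 < x then x ^ p / (p.factorial : ℝ) else 0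

/-- signed sum `ε·h` -/
def lin {n : ℕ} (h : Fin n → ℝ) (e : Fin n → Bool) : ℝ := ∑ k, sg (e k) * h k

/-- sign product -/
def par {n : ℕ} (e : Fin n → Bool) : ℝ := ∏ k, sg (e k)

/-- density at `x` of the convolution of the indicators of `[-h k, h k]` -/
noncomputable def G {n : ℕ} (h : Fin n → ℝ) (x : ℝ) : ℝ :=
  ∑ e : Fin n → Bool, par e * pp (n - 1) (x + lin h e)

noncomputable def V {n : ℕ} (h : Fin n → ℝ) : ℝ := G h 0

/-- first derivative of `V` in direction `z` -/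
noncomputable def D1 {n : ℕ} (h z : Fin n → ℝ) : ℝ :=
  ∑ e : Fin n → Bool, par e * lin z e * pp (n - 2) (lin h e)

/-- second derivative of `V` in directions `z`, `y` -/
noncomputable def D2 {n : ℕ} (h z y : Fin n → ℝ) : ℝ :=
  ∑ e : Fin n → Bool, par e * (lin z e * lin y e) * pp (n - 3) (lin h e)

/-- `∂V/∂h k` -/
noncomputable def Vk {n : ℕ} (h : Fin n → ℝ) (k : Fin n) : ℝ := D1 h (Pi.single k 1)

noncomputable def Tq {n : ℕ} (h z : Fin n → ℝ) : ℝ := ∑ k, Vk h k / h k * z k ^ 2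

def Active {n : ℕ} (h : Fin n → ℝ) : Prop := (∀ k, 0 < h k) ∧ ∀ k, 2 * h k < ∑ l, h l

/-- merge coordinate `j.succAbove i` with `j` -/
def merge {n : ℕ} (h : Fin (n + 1) → ℝ) (i : Fin n) (j : Fin (n + 1)) : Fin n → ℝ :=
  fun k => h (j.succAbove k) + if k = i then h j else 0

/-- the local inequality in `n` variables -/
def Local (n : ℕ) : Prop :=
  ∀ h z : Fin n → ℝ, (∀ k, 0 < h k) → (D2 h z z + Tq h z) * V h ≤ D1 h z ^ 2

/-! Block A (spline facts). -/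

def VolRec : Prop := ∀ (n : ℕ), 2 ≤ n → ∀ (h : Fin (n + 1) → ℝ) (j : Fin (n + 1)) (x : ℝ),
  G h x = ∫ s in (-h j)..(h j), G (h ∘ j.succAbove) (x + s)

def SplineShape : Prop := ∀ (n : ℕ), 2 ≤ n → ∀ h : Fin n → ℝ, (∀ k, 0 < h k) →
  (∀ x, 0 ≤ G h x) ∧ (∀ x, G h (-x) = G h x) ∧ (∀ x y, |x| ≤ |y| → G h y ≤ G h x) ∧
  (∀ x, |x| < ∑ k, h k → 0 < G h x) ∧ (∀ x, ∑ k, h k ≤ |x| → G h x = 0)

/-- `V_i = 2 G(others)(h i)` and its positivity on the active cone. -/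
def FirstPartial : Prop := ∀ (n : ℕ), 2 ≤ n → ∀ (h : Fin (n + 1) → ℝ) (i : Fin (n + 1)),
  (∀ k, 0 < h k) → Vk h i = 2 * G (h ∘ i.succAbove) (h i) ∧ 0 ≤ Vk h i ∧ (Active h → 0 < Vk h i)

/-- KEY: `V_i ≥ h_j · (V_ii + V_ij)`, and the bound used at the symmetric point. -/
def KeyBound : Prop := ∀ (n : ℕ), 3 ≤ n → ∀ (h : Fin (n + 1) → ℝ) (i j : Fin (n + 1)), i ≠ j →
  (∀ k, 0 < h k) →
  0 ≤ D2 h (Pi.single i 1) (Pi.single i 1 + Pi.single j 1) ∧
  h j * D2 h (Pi.single i 1) (Pi.single i 1 + Pi.single j 1) ≤ Vk h i ∧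
  (h i = h j → Vk h i ≤ -h j * D2 h (Pi.single i 1) (Pi.single i 1 - Pi.single j 1))

/-! Block E (three variables, inactive cone). -/

def BaseThree : Prop := Local 3

/-- Outside the active cone the inequality holds (there `V` is a monomial). -/
def InactiveLocal : Prop := ∀ (n : ℕ), 4 ≤ n → ∀ h z : Fin n → ℝ, (∀ k, 0 < h k) → ¬ Active h →
  (D2 h z z + Tq h z) * V h ≤ D1 h z ^ 2

/-! Block B (Bochner step). -/

def EigenGap : Prop := ∀ (n : ℕ), 3 ≤ n → Local n → ∀ (h z : Fin (n + 1) → ℝ) (lam : ℝ),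
  Active h → z ≠ 0 → (∀ k, D2 h z (Pi.single k 1) = lam * (Vk h k / h k * z k)) →
  lam ≤ -1 ∨ 0 < lam

/-! Block C (signature by continuity). -/

def ActiveLocal : Prop := ∀ (n : ℕ), 3 ≤ n → Local n → ∀ h z : Fin (n + 1) → ℝ, Active h →
  (D2 h z z + Tq h z) * V h ≤ D1 h z ^ 2

/-! Block D (calculus, volume). -/

def GlobalConcave : Prop := ∀ (n : ℕ), 4 ≤ n → Local n → ∀ (a b : Fin n → ℝ) (t : ℝ),
  (∀ k, 0 < a k) → (∀ k, 0 < b k) → t ∈ Set.Icc (0 : ℝ) 1 →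
  V a ^ (1 - t) * V b ^ t ≤ V (fun k => a k ^ (1 - t) * b k ^ t)

/-- The body cut out by the `d + 1` slabs is a scaled box spline value. -/
def VolumeBridge : Prop := ∀ (d : ℕ), 2 ≤ d → ∀ u : Fin (d + 1) → EuclideanSpace ℝ (Fin d),
  (∀ j : Fin (d + 1), LinearIndependent ℝ (u ∘ j.succAbove)) →
  ∃ (K : ℝ) (c : Fin (d + 1) → ℝ), 0 < K ∧ (∀ k, 0 < c k) ∧
    ∀ a : Fin (d + 1) → ℝ, (∀ k, 0 < a k) →
      (volume {x : EuclideanSpace ℝ (Fin d) | ∀ k, |inner ℝ (u k) x| ≤ a k}).toReal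
        = K * V (fun k => c k * a k)

end Vale.Agent.P227.Pairs
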