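import Mathlib
import Vale.Agent.P227.Pairs.Pins
import Vale.Agent.P227.Gluing

/-!
# P227, block D: from the local inequality to log-concavity on all positive vectors

The truncated powers are differentiable of the needed order when there are at least four
variables, so the formal derivatives `D1`, `D2` are the derivatives of `V`, and the local
inequality says that `s ↦ log V(e^s)` has nonpositive second derivative on every line.
-/

namespace Vale.Agent.P227.Pairs.ConcaveD

open Filter Topology Finset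

/-- The derivative of `x_+^(p+2)/(p+2)!` is `x_+^(p+1)/(p+1)!`. -/
theorem hasDerivAt_pp (p : ℕ) (x : ℝ) : HasDerivAt (pp (p + 2)) (pp (p + 1) x) x := by
  rcases lt_trichotomy x 0 with hx | rfl | hx
  · have he : pp (p + 2) =ᶠ[𝓝 x] fun _ => (0 : ℝ) := by
      filter_upwards [gt_mem_nhds hx] with y hy
      simp [pp, not_lt.2 hy.le]
    have hd : pp (p + 1) x = 0 := by simp [pp, not_lt.2 hx.le]
    rw [hd]
    exact (hasDerivAt_const x (0 : ℝ)).congr_of_eventuallyEq he
  · have hd : pp (p + 1) (0 : ℝ) = 0 := by simp [pp]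
    rw [hd, hasDerivAt_iff_isLittleO]
    have h0 : pp (p + 2) (0 : ℝ) = 0 := by simp [pp]
    simp only [h0, smul_zero, sub_zero]
    have hbound : ∀ y : ℝ, ‖pp (p + 2) y‖ ≤ 1 * ‖y ^ (p + 2)‖ := by
      intro y
      unfold pp
      split_ifs with hy
      · rw [one_mul, norm_div]
        exact div_le_self (norm_nonneg _) (by
          rw [Real.norm_natCast]; exact_mod_cast Nat.factorial_pos _)
      · simp
    refine (Asymptotics.IsBigO.of_bound 1 (Eventually.of_forall hbound)).trans_isLittleO ?_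
    exact Asymptotics.isLittleO_pow_id (by omega)
  · have he : pp (p + 2) =ᶠ[𝓝 x] fun y => y ^ (p + 2) / ((p + 2).factorial : ℝ) := by
      filter_upwards [lt_mem_nhds hx] with y hy
      simp [pp, hy]
    have hd : pp (p + 1) x = ((p + 2 : ℕ) : ℝ) * x ^ (p + 2 - 1) / ((p + 2).factorial : ℝ) := by
      rw [pp, if_pos hx, show p + 2 - 1 = p + 1 from rfl, Nat.factorial_succ (p + 1)]
      push_cast
      field_simp
      ring
    rw [hd]
    exact ((hasDerivAt_pow (p + 2) x).div_const _).congr_of_eventuallyEq he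

theorem lin_single {n : ℕ} (k : Fin n) (e : Fin n → Bool) :
    lin (Pi.single k 1) e = sg (e k) := by
  simp [lin, Pi.single_apply]

theorem D1_eq_sum_Vk {n : ℕ} (h z : Fin n → ℝ) : D1 h z = ∑ k, Vk h k * z k := by
  simp only [D1, Vk, lin_single, Finset.sum_mul]
  rw [Finset.sum_comm]
  refine Finset.sum_congr rfl fun e _ => ?_
  simp only [lin, Finset.mul_sum, Finset.sum_mul]
  exact Finset.sum_congr rfl fun k _ => by ring

theorem D2_eq_sum_right {n : ℕ} (h z y : Fin n → ℝ) :
    D2 h z y = ∑ l, D2 h z (Pi.single l 1) * y l := by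
  simp only [D2, lin_single, Finset.sum_mul]
  rw [Finset.sum_comm]
  refine Finset.sum_congr rfl fun e _ => ?_
  rw [show lin y e = ∑ l, sg (e l) * y l from rfl]
  simp only [Finset.mul_sum, Finset.sum_mul]
  exact Finset.sum_congr rfl fun l _ => by ring

theorem D2_comm {n : ℕ} (h z y : Fin n → ℝ) : D2 h z y = D2 h y z :=
  Finset.sum_congr rfl fun e _ => by rw [mul_comm (lin z e)]

theorem hasDerivAt_lin {n : ℕ} (c : ℝ → Fin n → ℝ) (c' : Fin n → ℝ) (t : ℝ)
    (hc : ∀ k, HasDerivAt (fun r => c r k) (c' k) t) (e : Fin n → Bool) :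
    HasDerivAt (fun r => lin (c r) e) (lin c' e) t :=
  HasDerivAt.fun_sum fun k _ => (hc k).const_mul (sg (e k))

/-- `D1` is the derivative of `V` along curves. -/
theorem hasDerivAt_V {n : ℕ} (hn : 3 ≤ n) (c : ℝ → Fin n → ℝ) (c' : Fin n → ℝ) (t : ℝ)
    (hc : ∀ k, HasDerivAt (fun r => c r k) (c' k) t) :
    HasDerivAt (fun r => V (c r)) (D1 (c t) c') t := by
  obtain ⟨p, rfl⟩ : ∃ p, n = p + 3 := ⟨n - 3, by omega⟩
  simp only [V, G, zero_add]
  refine (HasDerivAt.fun_sum fun e _ =>
    (((hasDerivAt_pp p (lin (c t) e)).comp t (hasDerivAt_lin c c' t hc e)).const_mul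
      (par e))).congr_deriv ?_
  refine Finset.sum_congr rfl fun e _ => ?_
  rw [show p + 3 - 2 = p + 1 from rfl]
  ring

/-- `D2` is the derivative of `D1` along curves. -/
theorem hasDerivAt_D1 {n : ℕ} (hn : 4 ≤ n) (c : ℝ → Fin n → ℝ) (c' z : Fin n → ℝ) (t : ℝ)
    (hc : ∀ k, HasDerivAt (fun r => c r k) (c' k) t) :
    HasDerivAt (fun r => D1 (c r) z) (D2 (c t) z c') t := by
  obtain ⟨p, rfl⟩ : ∃ p, n = p + 4 := ⟨n - 4, by omega⟩
  simp only [D1]
  refine (HasDerivAt.fun_sum fun e _ =>
    (((hasDerivAt_pp p (lin (c t) e)).comp t (hasDerivAt_lin c c' t hc e)).const_mul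
      (par e * lin z e))).congr_deriv ?_
  refine Finset.sum_congr rfl fun e _ => ?_
  rw [show p + 4 - 3 = p + 1 from rfl]
  ring

/-- Positivity of the central value. -/
theorem V_pos {n : ℕ} (hs : SplineShape) (hn : 2 ≤ n) (h : Fin n → ℝ) (hh : ∀ k, 0 < h k) :
    0 < V h := by
  refine (hs n hn h hh).2.2.2.1 0 ?_
  rw [abs_zero]
  exact Finset.sum_pos (fun k _ => hh k) ⟨⟨0, by omega⟩, Finset.mem_univ _⟩

/-- Log-concavity of `s ↦ V(e^s)` from the local inequality. -/
theorem concaveOn_logPull {n : ℕ} (hs : SplineShape) (hn : 4 ≤ n) (hloc : Local n) :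
    ConcaveOn ℝ Set.univ (logPull (V (n := n))) := by
  refine logConcave_of_form V (fun h k => Vk h k)
    (fun h k l => D2 h (Pi.single k 1) (Pi.single l 1))
    (fun h hh => V_pos hs (by omega) h hh) ?_ ?_ ?_
  · intro c c' t hc _
    rw [← D1_eq_sum_Vk]
    exact hasDerivAt_V (by omega) c c' t hc
  · intro c c' t k hc _
    rw [← D2_eq_sum_right]
    exact hasDerivAt_D1 hn c c' (Pi.single k 1) t hc
  · intro h hh w
    have h2 : (∑ k, ∑ l, D2 h (Pi.single k 1) (Pi.single l 1) * w k * w l) = D2 h w w := by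
      rw [D2_eq_sum_right h w w]
      rw [Finset.sum_comm]
      refine Finset.sum_congr rfl fun l _ => ?_
      rw [D2_comm h w, D2_eq_sum_right h (Pi.single l 1) w, Finset.sum_mul]
      refine Finset.sum_congr rfl fun k _ => ?_
      rw [D2_comm h (Pi.single k 1)]
    have h3 : (∑ k, Vk h k * w k ^ 2 / h k) = Tq h w :=
      Finset.sum_congr rfl fun k _ => by ring
    have hV := V_pos hs (by omega) h hh
    rw [h2, h3, ← D1_eq_sum_Vk, sub_nonpos, le_div_iff₀ hV]
    exact hloc h w hh

/-- Block D of the pins: global log-concavity from the local inequality. -/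
theorem globalConcave (hs : SplineShape) : GlobalConcave := by
  intro n hn hloc a b t ha hb ht
  exact geomMean_mul_le V (fun h hh => V_pos hs (by omega) h hh)
    (concaveOn_logPull hs hn hloc) ha hb ht.1 ht.2

end Vale.Agent.P227.Pairs.ConcaveD
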