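import Vale.Agent.P227.Pairs.Pins

/-!
P227 block A: spline facts for the signed sums `G`: recursion by integration, shape
(nonnegative, even, unimodal, support), the first partials and the key bound.
-/

namespace Vale.Agent.P227.Pairs

namespace Shape

open MeasureTheory Finset Set
open scoped BigOperators

lemma sg_true : sg true = 1 := rfl
lemma sg_false : sg false = -1 := rfl
lemma sg_mul_self (b : Bool) : sg b * sg b = 1 := by cases b <;> norm_num [sg]

lemma pp_of_nonpos {p : ℕ} {x : ℝ} (hx : x ≤ 0) : pp p x = 0 := by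
  simp [pp, not_lt.2 hx]

lemma pp_of_pos {p : ℕ} {x : ℝ} (hx : 0 < x) : pp p x = x ^ p / (p.factorial : ℝ) := by
  simp [pp, hx]

lemma pp_of_nonneg {p : ℕ} (hp : 1 ≤ p) {x : ℝ} (hx : 0 ≤ x) :
    pp p x = x ^ p / (p.factorial : ℝ) := by
  rcases hx.eq_or_lt with h | h
  · subst h
    rw [pp_of_nonpos le_rfl, zero_pow (by omega), zero_div]
  · exact pp_of_pos h

lemma pp_one (x : ℝ) : pp 1 x = max x 0 := by
  rcases le_total x 0 with h | h
  · rw [pp_of_nonpos h, max_eq_right h]
  · rw [pp_of_nonneg le_rfl h, max_eq_left h]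
    simp

lemma hasDerivAt_pp {p : ℕ} (hp : 1 ≤ p) (x : ℝ) : HasDerivAt (pp (p + 1)) (pp p x) x := by
  have hpoly : ∀ y : ℝ, HasDerivAt (fun t : ℝ => t ^ (p + 1) / ((p + 1).factorial : ℝ))
      (y ^ p / (p.factorial : ℝ)) y := by
    intro y
    refine ((hasDerivAt_pow (p + 1) y).div_const _).congr_deriv ?_
    rw [Nat.factorial_succ]
    push_cast
    field_simp
  have hR : 0 ≤ x → HasDerivWithinAt (pp (p + 1)) (pp p x) (Ici 0) x := by
    intro hx
    rw [pp_of_nonneg hp hx]
    exact (hpoly x).hasDerivWithinAt.congr (fun y hy => pp_of_nonneg (by omega) hy)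
      (pp_of_nonneg (by omega) hx)
  have hL : x ≤ 0 → HasDerivWithinAt (pp (p + 1)) (pp p x) (Iic 0) x := by
    intro hx
    rw [pp_of_nonpos hx]
    exact (hasDerivWithinAt_const x (Iic 0) (0 : ℝ)).congr (fun y hy => pp_of_nonpos hy)
      (pp_of_nonpos hx)
  rcases lt_trichotomy x 0 with h | h | h
  · exact (hL h.le).hasDerivAt (Iic_mem_nhds h)
  · have := (hL h.le).union (hR h.ge)
    rw [Iic_union_Ici] at this
    exact this.hasDerivAt Filter.univ_mem
  · exact (hR h.le).hasDerivAt (Ici_mem_nhds h)

lemma continuous_pp {p : ℕ} (hp : 1 ≤ p) : Continuous (pp p) := by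
  have h : pp p = fun x => max x 0 ^ p / (p.factorial : ℝ) := by
    funext x
    rcases le_total x 0 with h | h
    · rw [pp_of_nonpos h, max_eq_right h, zero_pow (by omega), zero_div]
    · rw [pp_of_nonneg hp h, max_eq_left h]
  rw [h]
  fun_prop

lemma integral_pp {p : ℕ} (hp : 1 ≤ p) (y c : ℝ) :
    ∫ s in (-c)..c, pp p (y + s) = pp (p + 1) (y + c) - pp (p + 1) (y - c) := by
  rw [intervalIntegral.integral_eq_sub_of_hasDerivAt (f := fun s => pp (p + 1) (y + s)) (f' := fun s => pp p (y + s))
    (fun s _ => (hasDerivAt_pp hp (y + s)).comp_const_add y s)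
    (((continuous_pp hp).comp (by fun_prop)).intervalIntegrable _ _)]
  rw [← sub_eq_add_neg]

lemma sum_split {n : ℕ} (i : Fin (n + 1)) (F : (Fin (n + 1) → Bool) → ℝ) :
    ∑ e, F e = ∑ e' : Fin n → Bool,
      (F (i.insertNth true e') + F (i.insertNth false e')) := by
  rw [← (Fin.insertNthEquiv (fun _ => Bool) i).sum_comp, Fintype.sum_prod_type_right]
  refine Finset.sum_congr rfl fun e _ => ?_
  rw [Fintype.sum_bool]
  rfl

lemma lin_insertNth {n : ℕ} (h : Fin (n + 1) → ℝ) (i : Fin (n + 1)) (b : Bool)
    (e : Fin n → Bool) :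
    lin h (i.insertNth b e) = sg b * h i + lin (h ∘ i.succAbove) e := by
  simp [lin, Fin.sum_univ_succAbove _ i]

lemma par_insertNth {n : ℕ} (i : Fin (n + 1)) (b : Bool) (e : Fin n → Bool) :
    par (i.insertNth b e : Fin (n + 1) → Bool) = sg b * par e := by
  simp [par, Fin.prod_univ_succAbove _ i]

lemma lin_single {n : ℕ} (i : Fin n) (e : Fin n → Bool) :
    lin (Pi.single i 1) e = sg (e i) := by
  simp [lin, Pi.single_apply]

lemma lin_add {n : ℕ} (y z : Fin n → ℝ) (e : Fin n → Bool) :
    lin (y + z) e = lin y e + lin z e := by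
  simp [lin, mul_add, Finset.sum_add_distrib]

lemma lin_sub {n : ℕ} (y z : Fin n → ℝ) (e : Fin n → Bool) :
    lin (y - z) e = lin y e - lin z e := by
  simp [lin, mul_sub, Finset.sum_sub_distrib]

lemma continuous_G {n : ℕ} (hn : 2 ≤ n) (h : Fin n → ℝ) : Continuous (G h) := by
  apply continuous_finsetSum
  intro e _
  exact continuous_const.mul ((continuous_pp (by omega)).comp (by fun_prop))

theorem volRec : VolRec := by
  intro n hn h j x
  obtain ⟨m, rfl⟩ : ∃ m, n = m + 2 := ⟨n - 2, by omega⟩
  unfold G
  rw [intervalIntegral.integral_finsetSum]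
  · rw [sum_split j]
    refine Finset.sum_congr rfl fun e _ => ?_
    rw [intervalIntegral.integral_const_mul]
    simp_rw [show ∀ s : ℝ, x + s + lin (h ∘ j.succAbove) e = (x + lin (h ∘ j.succAbove) e) + s
      from fun s => by ring]
    rw [integral_pp (by omega)]
    simp only [par_insertNth, lin_insertNth, sg_true, sg_false,
      show m + 2 + 1 - 1 = (m + 2 - 1) + 1 by omega]
    ring_nf
  · intro e _
    exact (continuous_const.mul ((continuous_pp (by omega)).comp (by fun_prop))).intervalIntegrable _ _

lemma G_two (h : Fin 2 → ℝ) (h0 : 0 < h 0) (h1 : 0 < h 1) (x : ℝ) :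
    G h x = max 0 (min (min (2 * h 0) (2 * h 1)) (h 0 + h 1 - |x|)) := by
  unfold G
  rw [sum_split 0]
  simp only [par_insertNth, lin_insertNth]
  rw [sum_split 0]
  simp only [par_insertNth, lin_insertNth, Fintype.sum_unique]
  simp only [par, lin, Finset.univ_eq_empty, Finset.prod_empty, Finset.sum_empty, sg_true, sg_false,
    show (2 : ℕ) - 1 = 1 from rfl, pp_one, Function.comp_apply,
    show ((0 : Fin 2).succAbove (0 : Fin 1)) = 1 from rfl]
  rcases le_total 0 x with hx | hx <;>
    simp only [abs_of_nonneg, abs_of_nonpos, hx, max_def, min_def] <;>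
    split_ifs <;> linarith

/-- The shape statement for one `n`. -/
def ShapeAt (n : ℕ) : Prop := ∀ h : Fin n → ℝ, (∀ k, 0 < h k) →
  (∀ x, 0 ≤ G h x) ∧ (∀ x, G h (-x) = G h x) ∧ (∀ x y, |x| ≤ |y| → G h y ≤ G h x) ∧
  (∀ x, |x| < ∑ k, h k → 0 < G h x) ∧ (∀ x, ∑ k, h k ≤ |x| → G h x = 0)

lemma shape_two : ShapeAt 2 := by
  intro h hp
  have e := G_two h (hp 0) (hp 1)
  have h0 := hp 0
  have h1 := hp 1
  refine ⟨fun x => by rw [e]; exact le_max_left _ _, fun x => by rw [e, e, abs_neg],
    fun x y hxy => ?_, fun x hx => ?_, fun x hx => ?_⟩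
  · rw [e, e]
    exact max_le_max le_rfl (min_le_min le_rfl (by linarith))
  · rw [Fin.sum_univ_two] at hx
    rw [e]
    exact lt_max_of_lt_right (lt_min (lt_min (by linarith) (by linarith)) (by linarith))
  · rw [Fin.sum_univ_two] at hx
    rw [e]
    exact max_eq_left ((min_le_right _ _).trans (by linarith))

lemma shape_succ {n : ℕ} (hn : 2 ≤ n) (ih : ShapeAt n) : ShapeAt (n + 1) := by
  intro h hp
  set j : Fin (n + 1) := Fin.last n with hj
  set g := G (h ∘ j.succAbove) with hg
  obtain ⟨g0, geven, gmono, gpos, gzero⟩ := ih (h ∘ j.succAbove) fun k => hp _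
  rw [← hg] at g0 geven gmono gpos gzero
  have hc : 0 < h j := hp j
  have hgc : Continuous g := continuous_G hn _
  have hrec : ∀ x, G h x = ∫ s in (-h j)..(h j), g (x + s) := fun x => volRec n hn h j x
  have hS : ∑ k, h k = h j + ∑ k, (h ∘ j.succAbove) k := Fin.sum_univ_succAbove h j
  have hSp : 0 < ∑ k, (h ∘ j.succAbove) k :=
    Finset.sum_pos (fun k _ => hp _) ⟨⟨0, by omega⟩, Finset.mem_univ _⟩
  have heven : ∀ x, G h (-x) = G h x := by
    intro x
    have hsub := intervalIntegral.integral_comp_neg (a := -h j) (b := h j) (fun s => g (x + s))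
    rw [neg_neg] at hsub
    rw [hrec, hrec, ← hsub]
    congr 1
    funext s
    rw [← geven]
    congr 1
    ring
  have habs : ∀ x, G h x = G h |x| := by
    intro x
    rcases abs_choice x with e | e <;> rw [e]
    rw [heven]
  have hcon : Continuous (G h) := continuous_G (by omega) h
  have hanti : AntitoneOn (G h) (Ici 0) := by
    set P : ℝ → ℝ := fun y => ∫ s in (0:ℝ)..y, g s with hP
    have hPd : ∀ y, HasDerivAt P (g y) y :=
      fun y => (hgc.integral_hasStrictDerivAt 0 y).hasDerivAt
    have hGd : ∀ x, HasDerivAt (G h) (g (x + h j) - g (x - h j)) x := by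
      intro x
      have e : G h = fun y => P (y + h j) - P (y - h j) := by
        funext y
        rw [hrec, intervalIntegral.integral_comp_add_left, ← sub_eq_add_neg y (h j)]
        exact (intervalIntegral.integral_interval_sub_left (hgc.intervalIntegrable _ _)
          (hgc.intervalIntegrable _ _)).symm
      rw [e]
      exact ((hPd _).comp_add_const x (h j)).fun_sub ((hPd _).comp_sub_const x (h j))
    refine antitoneOn_of_deriv_nonpos (convex_Ici 0) hcon.continuousOn
      (fun x _ => (hGd x).differentiableAt.differentiableWithinAt) fun x hx => ?_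
    rw [interior_Ici, Set.mem_Ioi] at hx
    rw [(hGd x).deriv, sub_nonpos]
    apply gmono
    rw [abs_le, abs_of_nonneg (by linarith : 0 ≤ x + h j)]
    constructor <;> linarith
  refine ⟨fun x => ?_, heven, fun x y hxy => ?_, fun x hx => ?_, fun x hx => ?_⟩
  · rw [hrec]
    exact intervalIntegral.integral_nonneg (by linarith) fun s _ => g0 _
  · rw [habs x, habs y]
    exact hanti (abs_nonneg x) (abs_nonneg y) hxy
  · rw [hrec]
    set S := ∑ k, (h ∘ j.succAbove) k with hSd
    rw [hS] at hx
    have ht : 0 < h j + S := by linarith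
    have hl : |x / (h j + S)| < 1 := by
      rw [abs_div, abs_of_pos ht, div_lt_one ht]
      exact hx
    obtain ⟨hl1, hl2⟩ := abs_lt.1 hl
    refine intervalIntegral.integral_pos (by linarith) ((hgc.comp (by fun_prop)).continuousOn)
      (fun s _ => g0 _) ⟨-(x / (h j + S)) * h j, ⟨?_, ?_⟩, gpos _ ?_⟩
    · nlinarith
    · nlinarith
    · have e : x + -(x / (h j + S)) * h j = x / (h j + S) * S := by
        field_simp
        ring
      rw [e, abs_mul, abs_of_pos hSp]
      nlinarith
  · rw [hrec]
    rw [hS] at hx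
    apply intervalIntegral.integral_zero_ae
    refine Filter.Eventually.of_forall fun s hs => gzero _ ?_
    rw [Set.uIoc_of_le (by linarith)] at hs
    have h1 : |x| ≤ |x + s| + |s| := by
      calc |x| = |(x + s) + -s| := by ring_nf
        _ ≤ |x + s| + |-s| := abs_add_le _ _
        _ = |x + s| + |s| := by rw [abs_neg]
    have h2 : |s| ≤ h j := abs_le.2 ⟨hs.1.le, hs.2⟩
    linarith

theorem splineShape : SplineShape := by
  intro n hn
  induction n, hn using Nat.le_induction with
  | base => exact shape_two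
  | succ n hn ih => exact shape_succ hn ih

theorem firstPartial : FirstPartial := by
  intro n hn h i hp
  obtain ⟨g0, geven, _, gpos, _⟩ := splineShape n hn (h ∘ i.succAbove) fun k => hp _
  have e : Vk h i = G (h ∘ i.succAbove) (h i) + G (h ∘ i.succAbove) (-h i) := by
    unfold Vk D1 G
    rw [sum_split i, ← Finset.sum_add_distrib]
    refine Finset.sum_congr rfl fun e _ => ?_
    simp only [lin_single]
    simp only [par_insertNth, lin_insertNth, Fin.insertNth_apply_same,
      sg_true, sg_false, show n + 1 - 2 = n - 1 by omega]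
    ring_nf
  rw [geven] at e
  refine ⟨by rw [e]; ring, by rw [e]; linarith [g0 (h i)], fun hA => ?_⟩
  have h2 := hA.2 i
  rw [Fin.sum_univ_succAbove h i] at h2
  have hlt : |h i| < ∑ k, (h ∘ i.succAbove) k := by
    rw [abs_of_pos (hp i)]
    simp only [Function.comp_apply]
    linarith
  rw [e]
  linarith [gpos _ hlt]

theorem keyBound : KeyBound := by
  intro n hn h i j hij hp
  obtain ⟨m, rfl⟩ : ∃ m, n = m + 1 := ⟨n - 1, by omega⟩
  obtain ⟨j', rfl⟩ := Fin.exists_succAbove_eq hij.symm
  set g := G ((h ∘ i.succAbove) ∘ j'.succAbove) with hg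
  obtain ⟨g0, geven, gmono, _, _⟩ :=
    splineShape m (by omega) ((h ∘ i.succAbove) ∘ j'.succAbove) fun k => hp _
  rw [← hg] at g0 geven gmono
  set a := h i with ha
  set b := h (i.succAbove j') with hb
  have hap : 0 < a := hp i
  have hbp : 0 < b := hp _
  have e1 : D2 h (Pi.single i 1) (Pi.single i 1 + Pi.single (i.succAbove j') 1)
      = 2 * g (a + b) + 2 * g (-(a + b)) := by
    unfold D2
    rw [sum_split i, sum_split j']
    simp only [hg, G, Finset.mul_sum, ← Finset.sum_add_distrib]
    refine Finset.sum_congr rfl fun e _ => ?_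
    simp only [lin_add, lin_single]
    simp only [par_insertNth, lin_insertNth, Fin.insertNth_apply_same,
      Fin.insertNth_apply_succAbove, Function.comp_apply, sg_true, sg_false,
      show m + 1 + 1 - 3 = m - 1 by omega, ← ha, ← hb]
    ring_nf
  have e2 : D2 h (Pi.single i 1) (Pi.single i 1 - Pi.single (i.succAbove j') 1)
      = -(2 * g (a - b) + 2 * g (-(a - b))) := by
    unfold D2
    rw [sum_split i, sum_split j']
    simp only [hg, G, Finset.mul_sum, ← Finset.sum_add_distrib, ← Finset.sum_neg_distrib]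
    refine Finset.sum_congr rfl fun e _ => ?_
    simp only [lin_sub, lin_single]
    simp only [par_insertNth, lin_insertNth, Fin.insertNth_apply_same,
      Fin.insertNth_apply_succAbove, Function.comp_apply, sg_true, sg_false,
      show m + 1 + 1 - 3 = m - 1 by omega, ← ha, ← hb]
    ring_nf
  rw [geven] at e1 e2
  have hV : Vk h i = 2 * ∫ s in (-b)..b, g (a + s) := by
    rw [(firstPartial (m + 1) (by omega) h i hp).1, volRec m (by omega) _ j' a]
    rfl
  have hgc : Continuous g := continuous_G (by omega) _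
  have hint : IntervalIntegrable (fun s => g (a + s)) volume (-b) b :=
    (hgc.comp (by fun_prop)).intervalIntegrable _ _
  refine ⟨by rw [e1]; linarith [g0 (a + b)], ?_, fun hab => ?_⟩
  · rw [e1, hV]
    have := intervalIntegral.integral_mono_on (by linarith : -b ≤ b)
      intervalIntegrable_const hint (fun s hs => gmono (a + s) (a + b) (by
        rw [abs_of_pos (by linarith : 0 < a + b), abs_le]
        exact ⟨by linarith [hs.1], by linarith [hs.2]⟩))
    rw [intervalIntegral.integral_const, smul_eq_mul] at this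
    linarith
  · rw [e2, hV, show a - b = 0 by linarith]
    have := intervalIntegral.integral_mono_on (by linarith : -b ≤ b)
      hint intervalIntegrable_const (fun s _ => gmono 0 (a + s) (by simp))
    rw [intervalIntegral.integral_const, smul_eq_mul] at this
    linarith

end Shape

theorem volRec : VolRec := Shape.volRec

theorem splineShape : SplineShape := Shape.splineShape

theorem firstPartial : FirstPartial := Shape.firstPartial

theorem keyBound : KeyBound := Shape.keyBound

end Vale.Agent.P227.Pairs
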