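import Vale.Agent.P227.Spectral
import Vale.Agent.P227.Pairs.Pins

/-!
P227, block C: the local inequality on the active cone, from the eigenvalue gap by continuity.
-/

namespace Vale.Agent.P227.Pairs.SigC

open Finset

variable {n : ℕ}

theorem pp_succ_mul (p : ℕ) (x : ℝ) : pp p x * x = ((p : ℝ) + 1) * pp (p + 1) x := by
  unfold pp
  split_ifs with h
  · rw [Nat.factorial_succ]
    push_cast
    have : (p.factorial : ℝ) ≠ 0 := Nat.cast_ne_zero.2 p.factorial_ne_zero
    field_simp
    ring
  · simp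

theorem continuous_pp {p : ℕ} (hp : 1 ≤ p) : Continuous (pp p) := by
  have e : pp p = fun x => max x 0 ^ p / (p.factorial : ℝ) := by
    funext x
    unfold pp
    split_ifs with h
    · rw [max_eq_left h.le]
    · rw [max_eq_right (not_lt.1 h), zero_pow (by omega), zero_div]
  rw [e]
  fun_prop

theorem lin_single (i : Fin n) (e : Fin n → Bool) : lin (Pi.single i 1) e = sg (e i) := by
  rw [lin, Fintype.sum_eq_single i]
  · simp
  · intro k hk
    simp [Pi.single_eq_of_ne hk]

theorem lin_eq_sum (z : Fin n → ℝ) (e : Fin n → Bool) :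
    lin z e = ∑ i, z i * lin (Pi.single i 1) e := by
  simp only [lin_single]
  exact sum_congr rfl fun i _ => mul_comm _ _

theorem D1_eq_sum (h z : Fin n → ℝ) : D1 h z = ∑ i, Vk h i * z i := by
  simp only [Vk, D1, sum_mul]
  rw [sum_comm]
  refine sum_congr rfl fun e _ => ?_
  rw [lin_eq_sum z e]
  simp only [mul_sum, sum_mul]
  exact sum_congr rfl fun i _ => by ring

theorem D2_symm (h z y : Fin n → ℝ) : D2 h z y = D2 h y z :=
  sum_congr rfl fun e _ => by ring

theorem D2_eq_sum (h z y : Fin n → ℝ) : D2 h z y = ∑ i, z i * D2 h (Pi.single i 1) y := by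
  simp only [D2, mul_sum]
  rw [sum_comm]
  refine sum_congr rfl fun e _ => ?_
  rw [lin_eq_sum z e]
  simp only [mul_sum, sum_mul]
  exact sum_congr rfl fun i _ => by ring

theorem euler2 (hn : 2 ≤ n) (h y : Fin (n + 1) → ℝ) :
    D2 h h y = ((n : ℝ) - 1) * D1 h y := by
  obtain ⟨m, rfl⟩ : ∃ m, n = m + 2 := ⟨n - 2, by omega⟩
  simp only [D2, D1, mul_sum, show m + 2 + 1 - 3 = m by omega, show m + 2 + 1 - 2 = m + 1 by omega]
  refine sum_congr rfl fun e _ => ?_
  push_cast
  linear_combination (par e * lin y e) * pp_succ_mul m (lin h e)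

theorem euler1 (hn : 1 ≤ n) (h : Fin (n + 1) → ℝ) : D1 h h = (n : ℝ) * V h := by
  obtain ⟨m, rfl⟩ : ∃ m, n = m + 1 := ⟨n - 1, by omega⟩
  simp only [D1, V, G, mul_sum, show m + 1 + 1 - 2 = m by omega, show m + 1 + 1 - 1 = m + 1 by omega,
    zero_add]
  refine sum_congr rfl fun e _ => ?_
  push_cast
  linear_combination (par e) * pp_succ_mul m (lin h e)

theorem D_perm (σ : Equiv.Perm (Fin n)) (c : ℝ) (i j : Fin n) :
    D1 (fun _ => c) (Pi.single (σ i) 1) = D1 (fun _ => c) (Pi.single i 1) ∧
      D2 (fun _ => c) (Pi.single (σ i) 1) (Pi.single (σ j) 1) =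
        D2 (fun _ => c) (Pi.single i 1) (Pi.single j 1) := by
  set F : (Fin n → Bool) ≃ (Fin n → Bool) := σ.arrowCongr (Equiv.refl Bool)
  have hl : ∀ e, lin (fun _ => c) (F e) = lin (fun _ => c) e := fun e => by
    simp only [lin, F, Equiv.arrowCongr_apply, Equiv.coe_refl, Function.comp_apply, id_eq]
    exact Equiv.sum_comp σ.symm (fun k => sg (e k) * c)
  have hp : ∀ e, par (F e) = par e := fun e => by
    simp only [par, F, Equiv.arrowCongr_apply, Equiv.coe_refl, Function.comp_apply, id_eq]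
    exact Equiv.prod_comp σ.symm (fun k => sg (e k))
  have hs : ∀ e k, lin (Pi.single (σ k) 1) (F e) = lin (Pi.single k 1) e := fun e k => by
    simp [lin_single, F, Equiv.arrowCongr_apply]
  constructor
  · simp only [D1]
    rw [← F.sum_comp]
    simp only [hl, hp, hs]
  · simp only [D2]
    rw [← F.sum_comp]
    simp only [hl, hp, hs]

theorem stable_const (hn : 3 ≤ n) (hK : KeyBound)
    (hpos : ∀ i, 0 < Vk (fun _ : Fin (n + 1) => (1:ℝ)) i) :
    Stable (fun i j => D2 (fun _ => (1:ℝ)) (Pi.single i 1) (Pi.single j 1))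
      (fun i => Vk (fun _ : Fin (n + 1) => (1:ℝ)) i) (fun _ => 1) := by
  intro z hz
  set h : Fin (n + 1) → ℝ := fun _ => 1 with hh
  set i0 : Fin (n + 1) := 0
  set j0 : Fin (n + 1) := Fin.last n
  have hne : i0 ≠ j0 := by
    simp [i0, j0, Fin.ext_iff]
    omega
  set H : Fin (n + 1) → Fin (n + 1) → ℝ :=
    fun i j => D2 h (Pi.single i 1) (Pi.single j 1) with hH
  have hp : ∀ i, Vk h i = Vk h i0 := fun i => by
    have := (D_perm (Equiv.swap i0 i) 1 i0 i0).1
    rwa [Equiv.swap_apply_left] at this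
  have hd : ∀ i, H i i = H i0 i0 := fun i => by
    have := (D_perm (Equiv.swap i0 i) 1 i0 i0).2
    rwa [Equiv.swap_apply_left] at this
  have ho : ∀ i j, i ≠ j → H i j = H i0 j0 := by
    intro i j hij
    set k := Equiv.swap i0 i j0 with hk
    have hik : i ≠ k := by
      intro e
      have e2 : Equiv.swap i0 i i0 = Equiv.swap i0 i j0 := by
        rw [Equiv.swap_apply_left]; exact e
      exact hne ((Equiv.swap i0 i).injective e2)
    have := (D_perm ((Equiv.swap i0 i).trans (Equiv.swap k j)) 1 i0 j0).2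
    rw [Equiv.trans_apply, Equiv.trans_apply, Equiv.swap_apply_left, ← hk,
      Equiv.swap_apply_left, Equiv.swap_apply_of_ne_of_ne hik hij] at this
    exact this
  have key := (hK n hn h i0 j0 hne fun _ => one_pos).2.2 rfl
  have e1 : D2 h (Pi.single i0 1) (Pi.single i0 1 - Pi.single j0 1) = H i0 i0 - H i0 j0 := by
    simp only [hH, D2, ← sum_sub_distrib]
    refine sum_congr rfl fun e _ => ?_
    have : lin (Pi.single i0 1 - Pi.single j0 1) e =
        lin (Pi.single i0 1) e - lin (Pi.single j0 1) e := by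
      simp only [lin, Pi.sub_apply, mul_sub, sum_sub_distrib]
    rw [this]; ring
  rw [e1] at key
  change qA H z ≤ -qT (fun i => Vk h i) h z
  simp only [hh, neg_one_mul, neg_sub] at key
  rw [← hh] at key
  have hA : qA H z = (H i0 i0 - H i0 j0) * ∑ i, z i ^ 2 + H i0 j0 * (∑ i, z i) ^ 2 := by
    rw [sq, sum_mul_sum, qA, mul_sum, mul_sum]
    simp only [← sum_add_distrib]
    refine sum_congr rfl fun i _ => ?_
    have e2 : ∀ j, z i * H i j * z j =
        H i0 j0 * (z i * z j) + if j = i then (H i0 i0 - H i0 j0) * z i ^ 2 else 0 := fun j => by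
      split_ifs with hji
      · subst hji; rw [hd j]; ring
      · rw [ho i j (Ne.symm hji)]; ring
    simp only [e2, sum_add_distrib, sum_ite_eq', mem_univ, if_true, mul_sum]
    ring
  have hz' : Vk h i0 * ∑ i, z i = 0 := by
    rw [mul_sum, ← hz]
    exact sum_congr rfl fun i _ => by rw [← hp i]
  have hT : qT (fun i => Vk h i) h z = Vk h i0 * ∑ i, z i ^ 2 := by
    rw [mul_sum]
    exact sum_congr rfl fun i _ => by beta_reduce; rw [hp i]; simp [hh]
  rw [hA, hT]
  have hnn : 0 ≤ ∑ i, z i ^ 2 := sum_nonneg fun i _ => sq_nonneg _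
  rcases mul_eq_zero.1 hz' with hp0 | hs
  · exact absurd hp0 (hpos i0).ne'
  · rw [hs]
    nlinarith [mul_le_mul_of_nonneg_right key hnn]

/-- The local inequality on the active cone. -/
theorem activeLocal (hE : EigenGap) (hF : FirstPartial) (hK : KeyBound) : ActiveLocal := by
  intro n hn hloc h z hact
  set γ : ℝ → Fin (n + 1) → ℝ := fun s k => (1 - s) + s * h k with hγ
  have hγa : ∀ s ∈ Set.Icc (0:ℝ) 1, Active (γ s) := by
    intro s hs
    refine ⟨fun k => ?_, fun k => ?_⟩
    · rcases hs.1.eq_or_lt with h0 | h0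
      · simp [hγ, ← h0]
      · have := mul_pos h0 (hact.1 k)
        simp only [hγ]; linarith [hs.2]
    · simp only [hγ, sum_add_distrib, ← mul_sum, sum_const, card_univ, Fintype.card_fin,
        nsmul_eq_mul, Nat.cast_add, Nat.cast_one]
      have hn' : (3:ℝ) ≤ n := by exact_mod_cast hn
      rcases hs.1.eq_or_lt with h0 | h0
      · simp [← h0]; linarith
      · have := mul_lt_mul_of_pos_left (hact.2 k) h0
        nlinarith [mul_nonneg (sub_nonneg.2 hs.2) (by linarith : (0:ℝ) ≤ n - 1)]
  have hc : ∀ (m : ℕ), 1 ≤ m → ∀ e : Fin (n + 1) → Bool,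
      ContinuousOn (fun s => pp m (lin (γ s) e)) (Set.Icc 0 1) := fun m hm e =>
    ((continuous_pp hm).comp (by simp only [lin, hγ]; fun_prop)).continuousOn
  have hst : Stable (fun i j => D2 (γ 1) (Pi.single i 1) (Pi.single j 1))
      (fun i => Vk (γ 1) i) (γ 1) := by
    refine stable_of_path (e := (n:ℝ) - 1) (g' := 0) (by norm_num)
      (H := fun s i j => D2 (γ s) (Pi.single i 1) (Pi.single j 1))
      (p := fun s i => Vk (γ s) i) (h := γ) ?_ ?_ ?_ ?_ ?_ ?_ ?_ ?_ ?_
    · intro i j
      exact continuousOn_finsetSum _ fun e _ => continuousOn_const.mul (hc _ (by omega) e)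
    · intro i
      exact continuousOn_finsetSum _ fun e _ => continuousOn_const.mul (hc _ (by omega) e)
    · intro i
      simp only [hγ]; fun_prop
    · intro s _ i j; exact D2_symm _ _ _
    · intro s hs i; exact (hF n (by omega) _ i (hγa s hs).1).2.2 (hγa s hs)
    · intro s hs; exact (hγa s hs).1
    · intro s _ i
      change ∑ j, D2 (γ s) (Pi.single i 1) (Pi.single j 1) * γ s j = _
      rw [Vk, ← euler2 (by omega), D2_eq_sum (γ s) (γ s)]
      exact sum_congr rfl fun j _ => by rw [D2_symm]; ring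
    · intro s hs y r hr hr0 _ hy
      by_contra hy0
      refine (hE n hn hloc (γ s) y r (hγa s hs) hy0 fun k => ?_).elim (fun h' => by linarith)
        (fun h' => by linarith)
      rw [D2_eq_sum]
      refine Eq.trans ?_ ((hy k).trans (by ring))
      exact sum_congr rfl fun j _ => by rw [D2_symm]; ring
    · have e : γ 0 = fun _ => 1 := by funext k; simp [hγ]
      have hγ0 := hγa 0 (by norm_num)
      rw [e] at hγ0 ⊢
      exact stable_const hn hK fun i => (hF n (by omega) _ i hγ0.1).2.2 hγ0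
  have e1 : γ 1 = h := by funext k; simp [hγ]
  rw [e1] at hst
  set H : Fin (n + 1) → Fin (n + 1) → ℝ :=
    fun i j => D2 h (Pi.single i 1) (Pi.single j 1) with hH
  have hA : ∀ x, qA H x = D2 h x x := fun x => by
    rw [D2_eq_sum h x x]
    refine sum_congr rfl fun i _ => ?_
    rw [D2_symm h _ x, D2_eq_sum h x, mul_sum]
    exact sum_congr rfl fun j _ => by rw [hH]; rw [D2_symm h (Pi.single j 1)]; ring
  have hT : ∀ x, qT (fun i => Vk h i) h x = Tq h x := fun x =>
    sum_congr rfl fun i _ => by ring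
  have hP : ∀ x, dp (fun i => Vk h i) x = D1 h x := fun x => (D1_eq_sum h x).symm
  have hpos := hact.1
  have hp := fun i => (hF n (by omega) h i hpos).2.2 hact
  have hd : 0 < D1 h h := hP h ▸ dp_h_pos hp hpos
  have hV : D1 h h = (n:ℝ) * V h := euler1 (by omega) h
  have hn0 : (0:ℝ) < n := by exact_mod_cast (show 0 < n by omega)
  have hV0 : 0 < V h := (mul_pos_iff_of_pos_left hn0).1 (hV ▸ hd)
  set c := D1 h z / D1 h h with hc'
  set w : Fin (n + 1) → ℝ := fun i => z i + -c * h i with hw
  have hwz : dp (fun i => Vk h i) w = 0 := by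
    rw [hw, dp_add_smul, hP, hP, hc']
    field_simp
    ring
  have hb := hst w hwz
  rw [hA, hT] at hb
  have e2 : D2 h w w = D2 h z z + 2 * -c * (((n:ℝ) - 1) * D1 h z) +
      (-c) ^ 2 * (((n:ℝ) - 1) * D1 h h) := by
    rw [← hA w, hw, qA_add_smul H (fun i j => D2_symm _ _ _), hA, hA, euler2 (by omega) h h]
    congr 2
    congr 1
    rw [← euler2 (by omega) h z, D2_symm h h z, D2_eq_sum h z h, dp]
    have : ∀ i, hmv H z i = D2 h (Pi.single i 1) z := fun i => by
      rw [D2_symm h _ z, D2_eq_sum h z]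
      exact sum_congr rfl fun j _ => by rw [hH]; rw [D2_symm]; ring
    simp only [this]
    rw [← D2_eq_sum, D2_symm, D2_eq_sum h h]
    exact sum_congr rfl fun i _ => by rw [D2_symm]; ring
  have e3 : Tq h w = Tq h z + 2 * -c * D1 h z + (-c) ^ 2 * D1 h h := by
    rw [← hT w, hw, qT_add_smul, hT, ← hP z, ← hP h]
    have f1 : ∑ i, Vk h i * z i / h i * h i = dp (fun i => Vk h i) z :=
      sum_congr rfl fun i _ => div_mul_cancel₀ _ (hpos i).ne'
    have f2 : Tq h h = dp (fun i => Vk h i) h :=
      sum_congr rfl fun i _ => by field_simp [(hpos i).ne']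
    rw [f1, hT, f2]
  rw [e2, e3, hV] at hb
  have hcV : c * ((n:ℝ) * V h) = D1 h z := by rw [← hV, hc']; field_simp
  have := mul_le_mul_of_nonneg_right hb hV0.le
  rw [← hcV] at this ⊢
  nlinarith

end Vale.Agent.P227.Pairs.SigC
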