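import Mathlib

/-!
P227: from log-concavity of the volume of slab bodies with `d + 1` fixed normals to the
logarithmic Brunn-Minkowski inequality and its local form with true Wulff bodies.
-/

namespace Vale.Agent.P227.Pairs

open MeasureTheory Set
open scoped RealInnerProductSpace

noncomputable section

variable {d : ℕ}

/-- `K` is an origin-symmetric convex body. -/
def IsBody (K : Set (EuclideanSpace ℝ (Fin d))) : Prop :=
  IsCompact K ∧ Convex ℝ K ∧ (interior K).Nonempty ∧ ∀ x ∈ K, -x ∈ K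

/-- The support function. -/
def supp (K : Set (EuclideanSpace ℝ (Fin d))) (y : EuclideanSpace ℝ (Fin d)) : ℝ :=
  sSup ((fun x => ⟪y, x⟫) '' K)

/-- The Wulff body of a function on the unit sphere, over all directions. -/
def wulff (f : EuclideanSpace ℝ (Fin d) → ℝ) : Set (EuclideanSpace ℝ (Fin d)) :=
  {x | ∀ y, ‖y‖ = 1 → ⟪y, x⟫ ≤ f y}

/-- The logarithmic combination. -/
def logComb (K L : Set (EuclideanSpace ℝ (Fin d))) (t : ℝ) : Set (EuclideanSpace ℝ (Fin d)) :=
  wulff fun y => supp K y ^ (1 - t) * supp L y ^ t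

/-- The body cut out by the slabs. -/
def slabs (u : Fin (d + 1) → EuclideanSpace ℝ (Fin d)) (a : Fin (d + 1) → ℝ) :
    Set (EuclideanSpace ℝ (Fin d)) :=
  {x | ∀ k, |⟪u k, x⟫| ≤ a k}

/-- Log-concavity of the volume of slab bodies with fixed normals. -/
def SlabLogConcave (u : Fin (d + 1) → EuclideanSpace ℝ (Fin d)) : Prop :=
  ∀ (a b : Fin (d + 1) → ℝ) (t : ℝ), (∀ k, 0 < a k) → (∀ k, 0 < b k) → t ∈ Icc (0 : ℝ) 1 →
    (volume (slabs u a)).toReal ^ (1 - t) * (volume (slabs u b)).toReal ^ t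
      ≤ (volume (slabs u fun k => a k ^ (1 - t) * b k ^ t)).toReal

variable {u : Fin (d + 1) → EuclideanSpace ℝ (Fin d)}

theorem slabs_isBounded (hu : ∀ j : Fin (d + 1), LinearIndependent ℝ (u ∘ j.succAbove))
    (a : Fin (d + 1) → ℝ) : Bornology.IsBounded (slabs u a) := by
  have hsp : Submodule.span ℝ (range (u ∘ (0 : Fin (d + 1)).succAbove)) = ⊤ :=
    (hu 0).span_eq_top_of_card_eq_finrank' (by simp)
  let T : EuclideanSpace ℝ (Fin d) →ₗ[ℝ] (Fin (d + 1) → ℝ) := LinearMap.pi fun k => innerₛₗ ℝ (u k)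
  have hker : LinearMap.ker T = ⊥ := by
    rw [LinearMap.ker_eq_bot']
    intro x hx
    have hle : Submodule.span ℝ (range (u ∘ (0 : Fin (d + 1)).succAbove)) ≤
        LinearMap.ker ((innerₛₗ ℝ) x) := by
      rw [Submodule.span_le]
      rintro _ ⟨i, rfl⟩
      have h := congrFun hx ((0 : Fin (d + 1)).succAbove i)
      simpa [T, real_inner_comm] using h
    rw [hsp] at hle
    have h : ⟪x, x⟫ = 0 := by simpa using hle (Submodule.mem_top (x := x))
    exact inner_self_eq_zero.1 h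
  obtain ⟨C, -, hC⟩ := T.exists_antilipschitzWith hker
  refine (hC.isBounded_preimage (Metric.isBounded_Icc (-a) a)).subset fun x hx => ?_
  exact ⟨fun k => (abs_le.1 (hx k)).1, fun k => (abs_le.1 (hx k)).2⟩

theorem slabs_ne_top (hu : ∀ j : Fin (d + 1), LinearIndependent ℝ (u ∘ j.succAbove))
    (a : Fin (d + 1) → ℝ) : volume (slabs u a) ≠ ⊤ :=
  (slabs_isBounded hu a).measure_lt_top.ne

theorem u_ne_zero (hd : 2 ≤ d) (hu : ∀ j : Fin (d + 1), LinearIndependent ℝ (u ∘ j.succAbove))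
    (k : Fin (d + 1)) : u k ≠ 0 := by
  have : Nontrivial (Fin (d + 1)) := Fin.nontrivial_iff_two_le.2 (by omega)
  obtain ⟨j, hj⟩ := exists_ne k
  obtain ⟨i, hi⟩ := Fin.exists_succAbove_eq hj.symm
  simpa [hi] using (hu j).ne_zero i

theorem supp_bddAbove {K : Set (EuclideanSpace ℝ (Fin d))} (hK : IsCompact K)
    (y : EuclideanSpace ℝ (Fin d)) : BddAbove ((fun x => ⟪y, x⟫) '' K) :=
  (hK.image (by fun_prop)).bddAbove

theorem le_supp {K : Set (EuclideanSpace ℝ (Fin d))} (hK : IsCompact K)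
    (y : EuclideanSpace ℝ (Fin d)) {x : EuclideanSpace ℝ (Fin d)} (hx : x ∈ K) :
    ⟪y, x⟫ ≤ supp K y :=
  le_csSup (supp_bddAbove hK y) (mem_image_of_mem _ hx)

theorem supp_pos {K : Set (EuclideanSpace ℝ (Fin d))} (hK : IsBody K)
    {y : EuclideanSpace ℝ (Fin d)} (hy : y ≠ 0) : 0 < supp K y := by
  obtain ⟨x, hx⟩ := hK.2.2.1
  obtain ⟨ε, hε, hball⟩ := Metric.isOpen_iff.1 isOpen_interior x hx
  have hyn : 0 < ‖y‖ := norm_pos_iff.2 hy
  set r : ℝ := ε / (2 * ‖y‖) with hr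
  have hr0 : 0 < r := by positivity
  have hmem : ∀ s : ℝ, |s| = r → x + s • y ∈ K := by
    intro s hs
    refine interior_subset (hball ?_)
    rw [Metric.mem_ball, dist_eq_norm, add_sub_cancel_left, norm_smul, Real.norm_eq_abs, hs, hr]
    rw [div_mul_eq_mul_div, div_lt_iff₀ (by positivity)]
    nlinarith
  have h1 := le_supp hK.1 y (hmem r (abs_of_pos hr0))
  have h2 := le_supp hK.1 y (hK.2.2.2 _ (hmem (-r) (by rw [abs_neg, abs_of_pos hr0])))
  simp only [inner_add_right, inner_neg_right, real_inner_smul_right, real_inner_self_eq_norm_sq]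
    at h1 h2
  nlinarith [mul_pos hr0 (pow_pos hyn 2)]

theorem subset_slabs_supp {K : Set (EuclideanSpace ℝ (Fin d))} (hK : IsBody K) :
    K ⊆ slabs u fun k => supp K (u k) := by
  intro x hx k
  rw [abs_le]
  have h1 := le_supp hK.1 (u k) hx
  have h2 := le_supp hK.1 (u k) (hK.2.2.2 x hx)
  rw [inner_neg_right] at h2
  exact ⟨by linarith, h1⟩

/-- Arbitrary bodies against the slab body of the geometric means of their support values. -/
theorem volume_le_slabs (hd : 2 ≤ d)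
    (hu : ∀ j : Fin (d + 1), LinearIndependent ℝ (u ∘ j.succAbove)) (hC : SlabLogConcave u)
    {K L : Set (EuclideanSpace ℝ (Fin d))} (hK : IsBody K) (hL : IsBody L) {t : ℝ}
    (ht : t ∈ Icc (0 : ℝ) 1) :
    (volume K).toReal ^ (1 - t) * (volume L).toReal ^ t
      ≤ (volume (slabs u fun k => supp K (u k) ^ (1 - t) * supp L (u k) ^ t)).toReal := by
  have hK0 := ENNReal.toReal_mono (slabs_ne_top hu _)
    (measure_mono (μ := volume) (subset_slabs_supp (u := u) hK))
  have hL0 := ENNReal.toReal_mono (slabs_ne_top hu _)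
    (measure_mono (μ := volume) (subset_slabs_supp (u := u) hL))
  refine (mul_le_mul (Real.rpow_le_rpow ENNReal.toReal_nonneg hK0 (by linarith [ht.2]))
    (Real.rpow_le_rpow ENNReal.toReal_nonneg hL0 ht.1) ?_ ?_).trans ?_
  · exact Real.rpow_nonneg ENNReal.toReal_nonneg _
  · exact Real.rpow_nonneg ENNReal.toReal_nonneg _
  exact hC _ _ t (fun k => supp_pos hK (u_ne_zero hd hu k))
    (fun k => supp_pos hL (u_ne_zero hd hu k)) ht

/-- Log-Brunn-Minkowski whenever the log combination is cut out by its constraints in the `d + 1`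
directions. -/
theorem logBM_of_slabs (hd : 2 ≤ d)
    (hu : ∀ j : Fin (d + 1), LinearIndependent ℝ (u ∘ j.succAbove)) (hC : SlabLogConcave u)
    {K L : Set (EuclideanSpace ℝ (Fin d))} (hK : IsBody K) (hL : IsBody L) {t : ℝ}
    (ht : t ∈ Icc (0 : ℝ) 1)
    (hcomb : logComb K L t = slabs u fun k => supp K (u k) ^ (1 - t) * supp L (u k) ^ t) :
    (volume K).toReal ^ (1 - t) * (volume L).toReal ^ t ≤ (volume (logComb K L t)).toReal := by
  rw [hcomb]
  exact volume_le_slabs hd hu hC hK hL ht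

theorem supp_slabs_le {a : Fin (d + 1) → ℝ} (ha : ∀ k, 0 ≤ a k) (k : Fin (d + 1)) {c : ℝ} :
    supp (slabs u a) (c • u k) ≤ |c| * a k := by
  refine csSup_le (Set.Nonempty.image _ ⟨0, fun l => by simpa using ha l⟩) ?_
  rintro _ ⟨x, hx, rfl⟩
  simp only [real_inner_smul_left]
  calc c * ⟪u k, x⟫ ≤ |c * ⟪u k, x⟫| := le_abs_self _
    _ = |c| * |⟪u k, x⟫| := abs_mul _ _
    _ ≤ |c| * a k := mul_le_mul_of_nonneg_left (hx k) (abs_nonneg c)

theorem wulff_subset_slabs {a : Fin (d + 1) → ℝ} (ha : ∀ k, 0 ≤ a k) (hu0 : ∀ k, u k ≠ 0)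
    {g : EuclideanSpace ℝ (Fin d) → ℝ} (hg : ∀ y, g (-y) = g y) :
    wulff (fun y => supp (slabs u a) y * Real.exp (g y)) ⊆
      slabs u fun k => a k * Real.exp (g (‖u k‖⁻¹ • u k)) := by
  intro x hx k
  have hn : 0 < ‖u k‖ := norm_pos_iff.2 (hu0 k)
  have side : ∀ c : ℝ, |c| = ‖u k‖⁻¹ → c * ⟪u k, x⟫ ≤ ‖u k‖⁻¹ * a k * Real.exp (g (c • u k)) := by
    intro c hc
    have h1 := hx (c • u k) (by rw [norm_smul, Real.norm_eq_abs, hc, inv_mul_cancel₀ hn.ne'])
    rw [real_inner_smul_left] at h1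
    refine h1.trans (mul_le_mul_of_nonneg_right ?_ (Real.exp_pos _).le)
    have := supp_slabs_le (u := u) ha k (c := c)
    rwa [hc] at this
  have hi : 0 < ‖u k‖⁻¹ := inv_pos.2 hn
  have h1 := side ‖u k‖⁻¹ (abs_of_pos hi)
  have h2 := side (-‖u k‖⁻¹) (by rw [abs_neg, abs_of_pos hi])
  rw [neg_smul, hg] at h2
  rw [abs_le]
  constructor <;>
  nlinarith [h1, h2, hi]

/-- The local form at a slab body, against every even perturbation. -/
theorem local_form (hd : 2 ≤ d)
    (hu : ∀ j : Fin (d + 1), LinearIndependent ℝ (u ∘ j.succAbove)) (hC : SlabLogConcave u)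
    {a : Fin (d + 1) → ℝ} (ha : ∀ k, 0 < a k) {g : EuclideanSpace ℝ (Fin d) → ℝ}
    (hg : ∀ y, g (-y) = g y) :
    (volume (wulff fun y => supp (slabs u a) y * Real.exp (g y))).toReal *
      (volume (wulff fun y => supp (slabs u a) y * Real.exp (-g y))).toReal
        ≤ (volume (slabs u a)).toReal ^ 2 := by
  set ψ : Fin (d + 1) → ℝ := fun k => g (‖u k‖⁻¹ • u k) with hψ
  have ha' : ∀ k, 0 ≤ a k := fun k => (ha k).le
  have hP := ENNReal.toReal_mono (slabs_ne_top hu _) (measure_mono (μ := volume)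
    (wulff_subset_slabs ha' (u_ne_zero hd hu) hg))
  have hM := ENNReal.toReal_mono (slabs_ne_top hu _) (measure_mono (μ := volume)
    (wulff_subset_slabs (g := fun y => -g y) ha' (u_ne_zero hd hu) (fun y => by rw [hg])))
  have h := hC (fun k => a k * Real.exp (ψ k)) (fun k => a k * Real.exp (-ψ k)) (1 / 2)
    (fun k => mul_pos (ha k) (Real.exp_pos _)) (fun k => mul_pos (ha k) (Real.exp_pos _))
    ⟨by norm_num, by norm_num⟩
  have hmid : (fun k => (a k * Real.exp (ψ k)) ^ (1 - 1 / 2 : ℝ) *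
      (a k * Real.exp (-ψ k)) ^ (1 / 2 : ℝ)) = a := by
    funext k
    have h2 : (1 - 1 / 2 : ℝ) = 1 / 2 := by norm_num
    rw [h2, ← Real.mul_rpow (mul_pos (ha k) (Real.exp_pos _)).le
      (mul_pos (ha k) (Real.exp_pos _)).le, mul_mul_mul_comm, ← Real.exp_add, add_neg_cancel,
      Real.exp_zero, mul_one, ← Real.sqrt_eq_rpow, Real.sqrt_mul_self (ha k).le]
  rw [hmid] at h
  set p := (volume (slabs u fun k => a k * Real.exp (ψ k))).toReal
  set q := (volume (slabs u fun k => a k * Real.exp (-ψ k))).toReal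
  have hp : 0 ≤ p := ENNReal.toReal_nonneg
  have hq : 0 ≤ q := ENNReal.toReal_nonneg
  rw [show (1 - 1 / 2 : ℝ) = 1 / 2 by norm_num, ← Real.mul_rpow hp hq, ← Real.sqrt_eq_rpow] at h
  have hpq : p * q ≤ (volume (slabs u a)).toReal ^ 2 := (Real.sqrt_le_iff.1 h).2
  exact (mul_le_mul hP hM ENNReal.toReal_nonneg hp).trans hpq

end

end Vale.Agent.P227.Pairs
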