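import Vale.Agent.P227.Pairs.Step
import Vale.Agent.P227.Pairs.Shape
import Vale.Agent.P227.Pairs.Signature
import Vale.Agent.P227.Pairs.Concave
import Vale.Agent.P227.Pairs.Wulff

/-!
Assembly: the local inequality for every number of variables, and log-concavity of slab volumes.
-/

namespace Vale.Agent.P227.Pairs

theorem local_all (hB : BaseThree) (hI : InactiveLocal) : ∀ n, 3 ≤ n → Local n := by
  intro n hn
  induction n, hn using Nat.le_induction with
  | base => exact hB
  | succ n hn ih =>
    intro h z hp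
    by_cases hact : Active h
    · exact SigC.activeLocal (StepB.eigenGap_of splineShape firstPartial keyBound) firstPartial
        keyBound n hn ih h z hact
    · exact hI (n + 1) (by omega) h z hp hact

theorem slabLogConcave (hB : BaseThree) (hI : InactiveLocal) (hV : VolumeBridge) {d : ℕ} (hd : 3 ≤ d)
    {u : Fin (d + 1) → EuclideanSpace ℝ (Fin d)}
    (hu : ∀ j : Fin (d + 1), LinearIndependent ℝ (u ∘ j.succAbove)) : SlabLogConcave u := by
  intro a b t ha hb ht
  obtain ⟨K, c, hK, hc, hvol⟩ := hV d (by omega) u hu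
  have hm : ∀ k, 0 < a k ^ (1 - t) * b k ^ t := fun k =>
    mul_pos (Real.rpow_pos_of_pos (ha k) _) (Real.rpow_pos_of_pos (hb k) _)
  have hV0 : ∀ h : Fin (d + 1) → ℝ, (∀ k, 0 < h k) → 0 ≤ V h := fun h hh =>
    (splineShape (d + 1) (by omega) h hh).1 0
  simp only [slabs]
  rw [hvol a ha, hvol b hb, hvol _ hm,
    Real.mul_rpow hK.le (hV0 _ fun k => mul_pos (hc k) (ha k)),
    Real.mul_rpow hK.le (hV0 _ fun k => mul_pos (hc k) (hb k))]
  have hg := ConcaveD.globalConcave splineShape (d + 1) (by omega) (local_all hB hI (d + 1) (by omega))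
    (fun k => c k * a k) (fun k => c k * b k) t (fun k => mul_pos (hc k) (ha k))
    (fun k => mul_pos (hc k) (hb k)) ht
  have he : (fun k => (c k * a k) ^ (1 - t) * (c k * b k) ^ t)
      = fun k => c k * (a k ^ (1 - t) * b k ^ t) := funext fun k => by
    rw [Real.mul_rpow (hc k).le (ha k).le, Real.mul_rpow (hc k).le (hb k).le]
    have : c k ^ (1 - t) * c k ^ t = c k := by
      rw [← Real.rpow_add (hc k)]; simp
    calc _ = (c k ^ (1 - t) * c k ^ t) * (a k ^ (1 - t) * b k ^ t) := by ring
      _ = _ := by rw [this]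
  rw [he] at hg
  calc K ^ (1 - t) * V (fun k => c k * a k) ^ (1 - t) * (K ^ t * V (fun k => c k * b k) ^ t)
      = (K ^ (1 - t) * K ^ t) * (V (fun k => c k * a k) ^ (1 - t) * V (fun k => c k * b k) ^ t) := by
        ring
    _ = K * (V (fun k => c k * a k) ^ (1 - t) * V (fun k => c k * b k) ^ t) := by
        rw [← Real.rpow_add hK]; simp
    _ ≤ K * V (fun k => c k * (a k ^ (1 - t) * b k ^ t)) := mul_le_mul_of_nonneg_left hg hK.le

end Vale.Agent.P227.Pairs
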