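import Vale.Agent.P227.Pairs.Pins
import Vale.Agent.P227.Base3

/-! P227: the three-variable inequality and the inequality outside the active cone. -/

namespace Vale.Agent.P227.Pairs.BaseE

open Finset Polynomial

/-- Alternating sums of powers of a signed sum: zero below the top degree, a monomial at it. -/
theorem alt_pow_sum : ∀ (m : ℕ) (h : Fin m → ℝ) (p : ℕ), p ≤ m → ∀ c : ℝ,
    ∑ e : Fin m → Bool, par e * (c + lin h e) ^ p =
      if p = m then (m.factorial : ℝ) * ∏ k, (2 * h k) else 0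
  | 0, h, p, hp, c => by
    obtain rfl : p = 0 := by omega
    simp [par]
  | m + 1, h, p, hp, c => by
    have IH := alt_pow_sum m (fun k => h k.succ)
    rw [← (Fin.consEquiv fun _ : Fin (m + 1) => Bool).sum_comp, Fintype.sum_prod_type]
    simp only [Fintype.sum_bool, Fin.consEquiv_apply, par, lin, Fin.prod_univ_succ,
      Fin.sum_univ_succ, Fin.cons_zero, Fin.cons_succ, sg, ↓reduceIte, Bool.false_eq_true,
      one_mul, neg_mul]
    rw [← Finset.sum_add_distrib]
    have hexp : ∀ X : ℝ, (c + (h 0 + X)) ^ p - (c + (-(h 0) + X)) ^ p =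
        ∑ j ∈ range (p + 1), (c + X) ^ j * ((h 0 ^ (p - j) - (-(h 0)) ^ (p - j)) * p.choose j) := by
      intro X
      rw [show c + (h 0 + X) = (c + X) + h 0 by ring,
        show c + (-(h 0) + X) = (c + X) + -(h 0) by ring, add_pow, add_pow,
        ← Finset.sum_sub_distrib]
      exact Finset.sum_congr rfl fun j _ => by ring
    have hstep : ∀ e : Fin m → Bool,
        par e * (c + (h 0 + lin (fun k => h k.succ) e)) ^ p +
          -(par e * (c + (-(h 0) + lin (fun k => h k.succ) e)) ^ p) =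
        ∑ j ∈ range (p + 1), (par e * (c + lin (fun k => h k.succ) e) ^ j) *
          ((h 0 ^ (p - j) - (-(h 0)) ^ (p - j)) * p.choose j) := by
      intro e
      rw [← sub_eq_add_neg, ← mul_sub, hexp, Finset.mul_sum]
      exact Finset.sum_congr rfl fun j _ => by ring
    simp only [par, lin, sg] at hstep IH
    simp only [hstep]
    rw [Finset.sum_comm]
    simp only [← Finset.sum_mul]
    have hz : ∀ j ∈ range (p + 1), j ≠ m →
        (∑ e : Fin m → Bool, (∏ k, if e k then (1 : ℝ) else -1) *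
          (c + ∑ k, (if e k then (1 : ℝ) else -1) * h k.succ) ^ j) *
          ((h 0 ^ (p - j) - (-(h 0)) ^ (p - j)) * p.choose j) = 0 := by
      intro j hj hne
      rw [Finset.mem_range] at hj
      rcases Nat.lt_or_ge j m with hlt | hge
      · rw [IH j hlt.le c, if_neg hlt.ne, zero_mul]
      · rw [show p - j = 0 by omega]; simp
    rcases Nat.lt_or_ge p (m + 1) with hlt | hge
    · rw [if_neg hlt.ne]
      refine Finset.sum_eq_zero fun j hj => ?_
      by_cases hjm : j = m
      · rw [Finset.mem_range] at hj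
        subst hjm
        rw [show p - j = 0 by omega]
        simp
      · exact hz j hj hjm
    · obtain rfl : p = m + 1 := by omega
      rw [if_pos rfl, Finset.sum_eq_single_of_mem m (by simp) hz, IH m le_rfl c, if_pos rfl,
        show m + 1 - m = 1 by omega, Nat.choose_succ_self_right, Nat.factorial_succ]
      push_cast
      ring

theorem coeff_linPow (a b : ℝ) : ∀ m : ℕ,
    ((C a + C b * X) ^ m).coeff 0 = a ^ m ∧ ((C a + C b * X) ^ m).coeff 1 = m * a ^ (m - 1) * b ∧
      2 * ((C a + C b * X) ^ m).coeff 2 = m * (m - 1 : ℕ) * a ^ (m - 2) * b ^ 2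
  | 0 => by simp [coeff_one]
  | m + 1 => by
    obtain ⟨e0, e1, e2⟩ := coeff_linPow a b m
    have hs : ∀ k, ((C a + C b * X) ^ (m + 1)).coeff (k + 1) =
        a * ((C a + C b * X) ^ m).coeff (k + 1) + b * ((C a + C b * X) ^ m).coeff k := fun k => by
      rw [pow_succ', add_mul, coeff_add, coeff_C_mul, mul_assoc, coeff_C_mul, coeff_X_mul]
    refine ⟨?_, ?_, ?_⟩
    · rw [pow_succ', add_mul, coeff_add, coeff_C_mul, mul_assoc, coeff_C_mul,
        coeff_X_mul_zero, e0]
      ring
    · rw [hs 0, e0, zero_add, e1]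
      cases m with
      | zero => simp
      | succ m => simp only [Nat.add_sub_cancel, pow_succ]; push_cast; ring
    · rw [hs 1, mul_add, ← mul_assoc, mul_comm (2 : ℝ) a, mul_assoc, e2, e1]
      match m with
      | 0 => simp
      | 1 => simp; ring
      | m + 2 =>
        simp only [show m + 2 + 1 - 2 = m + 1 by omega, show m + 2 - 2 = m by omega,
          show m + 2 + 1 - 1 = m + 2 by omega, show m + 2 - 1 = m + 1 by omega, pow_succ]
        push_cast
        ring

theorem coeff_prodLin {ι : Type*} [DecidableEq ι] (a b : ι → ℝ) (s : Finset ι)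
    (ha : ∀ k, a k ≠ 0) :
    (∏ k ∈ s, (C (a k) + C (b k) * X)).coeff 0 = ∏ k ∈ s, a k ∧
      (∏ k ∈ s, (C (a k) + C (b k) * X)).coeff 1 = (∏ k ∈ s, a k) * ∑ k ∈ s, b k / a k ∧
      2 * (∏ k ∈ s, (C (a k) + C (b k) * X)).coeff 2 =
        (∏ k ∈ s, a k) * ((∑ k ∈ s, b k / a k) ^ 2 - ∑ k ∈ s, (b k / a k) ^ 2) := by
  induction s using Finset.induction_on with
  | empty => simp [coeff_one]
  | @insert i s hi ih =>
    obtain ⟨e0, e1, e2⟩ := ih
    simp only [Finset.prod_insert hi, Finset.sum_insert hi]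
    have hs : ∀ k, ((C (a i) + C (b i) * X) * ∏ k ∈ s, (C (a k) + C (b k) * X)).coeff (k + 1) =
        a i * (∏ k ∈ s, (C (a k) + C (b k) * X)).coeff (k + 1) +
          b i * (∏ k ∈ s, (C (a k) + C (b k) * X)).coeff k := fun k => by
      rw [add_mul, coeff_add, coeff_C_mul, mul_assoc, coeff_C_mul, coeff_X_mul]
    refine ⟨?_, ?_, ?_⟩
    · rw [add_mul, coeff_add, coeff_C_mul, mul_assoc, coeff_C_mul, coeff_X_mul_zero, e0]
      ring
    · rw [hs 0, zero_add, e1, e0]
      field_simp [ha i]
      ring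
    · rw [hs 1, mul_add, ← mul_assoc, mul_comm (2 : ℝ) (a i), mul_assoc, e2, e1]
      field_simp [ha i]
      ring

/-- The alternating sum with the moments of a second signed sum, in all `m` variables. -/
theorem alt_moments {m : ℕ} (h z : Fin m → ℝ) (c d : ℝ) (hh : ∀ k, h k ≠ 0) :
    (∑ e : Fin m → Bool, par e * ((c + lin h e) ^ m / m.factorial)) = ∏ k, (2 * h k) ∧
    (∑ e : Fin m → Bool, par e * (m * (c + lin h e) ^ (m - 1) * (d + lin z e) / m.factorial)) =
      (∏ k, (2 * h k)) * ∑ k, z k / h k ∧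
    (∑ e : Fin m → Bool,
      par e * (m * (m - 1 : ℕ) * (c + lin h e) ^ (m - 2) * (d + lin z e) ^ 2 / m.factorial)) =
      (∏ k, (2 * h k)) * ((∑ k, z k / h k) ^ 2 - ∑ k, (z k / h k) ^ 2) := by
  classical
  have hf : (m.factorial : ℝ) ≠ 0 := Nat.cast_ne_zero.2 m.factorial_ne_zero
  have hP : (∑ e : Fin m → Bool, C (par e / m.factorial) *
      (C (c + lin h e) + C (d + lin z e) * X) ^ m) = ∏ k, (C (2 * h k) + C (2 * z k) * X) := by
    refine Polynomial.funext fun t => ?_
    simp only [eval_finsetSum, eval_prod, eval_mul, eval_C, eval_pow, eval_add, eval_X]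
    have e := alt_pow_sum m (fun k => h k + t * z k) m le_rfl (c + t * d)
    rw [if_pos rfl] at e
    have hl : ∀ e : Fin m → Bool, c + t * d + lin (fun k => h k + t * z k) e =
        c + lin h e + (d + lin z e) * t := fun e => by
      simp only [lin, mul_add, Finset.sum_add_distrib, add_mul, Finset.sum_mul]
      ring_nf
    simp only [hl] at e
    simp only [div_mul_eq_mul_div, ← Finset.sum_div]
    rw [e, mul_div_cancel_left₀ _ hf]
    exact Finset.prod_congr rfl fun k _ => by ring
  have h2 : ∀ k, 2 * h k ≠ 0 := fun k => mul_ne_zero two_ne_zero (hh k)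
  obtain ⟨p0, p1, p2⟩ := coeff_prodLin (fun k => 2 * h k) (fun k => 2 * z k) univ h2
  have hw : ∀ k, 2 * z k / (2 * h k) = z k / h k := fun k =>
    mul_div_mul_left _ _ two_ne_zero
  simp only [hw] at p1 p2
  refine ⟨?_, ?_, ?_⟩
  · rw [← p0, ← hP, finsetSum_coeff]
    exact Finset.sum_congr rfl fun e _ => by rw [coeff_C_mul, (coeff_linPow _ _ m).1]; ring
  · rw [← p1, ← hP, finsetSum_coeff]
    exact Finset.sum_congr rfl fun e _ => by rw [coeff_C_mul, (coeff_linPow _ _ m).2.1]; ring
  · rw [← p2, ← hP, finsetSum_coeff, Finset.mul_sum]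
    exact Finset.sum_congr rfl fun e _ => by
      rw [coeff_C_mul, mul_left_comm, (coeff_linPow _ _ m).2.2]; ring

theorem sum_split {m : ℕ} (i : Fin (m + 1)) (F : (Fin (m + 1) → Bool) → ℝ) :
    ∑ e, F e = ∑ e : Fin m → Bool, F (i.insertNth true e) +
      ∑ e : Fin m → Bool, F (i.insertNth false e) := by
  rw [← (Fin.insertNthEquiv (fun _ : Fin (m + 1) => Bool) i).sum_comp, Fintype.sum_prod_type,
    Fintype.sum_bool]
  rfl

theorem lin_insertNth {m : ℕ} (i : Fin (m + 1)) (h : Fin (m + 1) → ℝ) (b : Bool)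
    (e : Fin m → Bool) : lin h (i.insertNth b e) = sg b * h i + lin (h ∘ i.succAbove) e := by
  simp [lin, Fin.sum_univ_succAbove _ i]

theorem par_insertNth {m : ℕ} (i : Fin (m + 1)) (b : Bool) (e : Fin m → Bool) :
    par (i.insertNth b e) = sg b * par e := by
  simp [par, Fin.prod_univ_succAbove _ i]

theorem inactiveLocal : InactiveLocal := by
  intro n hn h z hh hna
  obtain ⟨m, rfl⟩ : ∃ m, n = m + 1 := ⟨n - 1, by omega⟩
  have hna' : ¬ ∀ k, 2 * h k < ∑ l, h l := fun hc => hna ⟨hh, hc⟩
  simp only [not_forall, not_lt] at hna'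
  obtain ⟨i, hi⟩ := hna'
  set h' := h ∘ i.succAbove with hh'
  have hsum : ∑ k, h' k ≤ h i := by
    rw [Fin.sum_univ_succAbove _ i] at hi
    simp only [hh', Function.comp]
    linarith
  have habs : ∀ e : Fin m → Bool, |lin h' e| ≤ h i := fun e => by
    refine (Finset.abs_sum_le_sum_abs _ _).trans (le_trans (le_of_eq ?_) hsum)
    refine Finset.sum_congr rfl fun k _ => ?_
    rw [abs_mul, show |sg (e k)| = 1 by cases e k <;> simp [sg], one_mul,
      abs_of_pos (show 0 < h' k from hh _)]
  have hpt : ∀ (p : ℕ) (e : Fin m → Bool), 0 < p →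
      pp p (h i + lin h' e) = (h i + lin h' e) ^ p / p.factorial := fun p e hp => by
    have := neg_le_of_abs_le (habs e)
    unfold pp
    split_ifs with hpos
    · rfl
    · rw [show h i + lin h' e = 0 by linarith, zero_pow hp.ne', zero_div]
  have hpf : ∀ (p : ℕ) (e : Fin m → Bool), pp p (-h i + lin h' e) = 0 := fun p e => by
    have := le_of_abs_le (habs e)
    unfold pp
    rw [if_neg (by linarith)]
  have hne : ∀ k, h' k ≠ 0 := fun k => (hh _).ne'
  have hf1 : ((m - 1).factorial : ℝ) * m = m.factorial := by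
    rw [mul_comm]; exact_mod_cast Nat.mul_factorial_pred (show m ≠ 0 by omega)
  have hf2 : ((m - 2).factorial : ℝ) * ((m - 1 : ℕ) : ℝ) = ((m - 1).factorial : ℝ) := by
    rw [mul_comm, show m - 2 = m - 1 - 1 by omega]
    exact_mod_cast Nat.mul_factorial_pred (show m - 1 ≠ 0 by omega)
  set P := ∏ k, (2 * h' k) with hP
  have hV : V h = P := by
    rw [hP, ← (alt_moments h' h' (h i) 0 hne).1]
    unfold V G
    rw [sum_split i]
    simp only [lin_insertNth, par_insertNth, sg, ↓reduceIte, Bool.false_eq_true, one_mul,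
      neg_one_mul, zero_add, ← hh', show m + 1 - 1 = m by omega, hpf, mul_zero,
      Finset.sum_const_zero, add_zero]
    exact Finset.sum_congr rfl fun e _ => by rw [hpt m e (by omega)]
  have hD1 : ∀ y : Fin (m + 1) → ℝ, D1 h y = P * ∑ k, y (i.succAbove k) / h' k := fun y => by
    refine Eq.trans ?_ (alt_moments h' (y ∘ i.succAbove) (h i) (y i) hne).2.1
    unfold D1
    rw [sum_split i]
    simp only [lin_insertNth, par_insertNth, sg, ↓reduceIte, Bool.false_eq_true, one_mul,
      neg_one_mul, ← hh', show m + 1 - 2 = m - 1 by omega, hpf, mul_zero,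
      Finset.sum_const_zero, add_zero]
    refine Finset.sum_congr rfl fun e _ => ?_
    have : (m : ℝ) ≠ 0 := Nat.cast_ne_zero.2 (by omega)
    have : ((m - 1).factorial : ℝ) ≠ 0 := Nat.cast_ne_zero.2 (Nat.factorial_ne_zero _)
    rw [hpt (m - 1) e (by omega), ← hf1]
    field_simp
  have hD2 : D2 h z z = P * ((∑ k, z (i.succAbove k) / h' k) ^ 2 -
      ∑ k, (z (i.succAbove k) / h' k) ^ 2) := by
    refine Eq.trans ?_ (alt_moments h' (z ∘ i.succAbove) (h i) (z i) hne).2.2
    unfold D2
    rw [sum_split i]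
    simp only [lin_insertNth, par_insertNth, sg, ↓reduceIte, Bool.false_eq_true, one_mul,
      neg_one_mul, ← hh', show m + 1 - 3 = m - 2 by omega, hpf, mul_zero,
      Finset.sum_const_zero, add_zero]
    refine Finset.sum_congr rfl fun e _ => ?_
    have : (m : ℝ) ≠ 0 := Nat.cast_ne_zero.2 (by omega)
    have : ((m - 1 : ℕ) : ℝ) ≠ 0 := Nat.cast_ne_zero.2 (by omega)
    have : ((m - 2).factorial : ℝ) ≠ 0 := Nat.cast_ne_zero.2 (Nat.factorial_ne_zero _)
    rw [hpt (m - 2) e (by omega), ← hf1, ← hf2]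
    field_simp
  have hVk : ∀ k, Vk h (i.succAbove k) = P / h' k := fun k => by
    rw [Vk, hD1, Finset.sum_eq_single k]
    · simp [div_eq_mul_inv]
    · intro l _ hl
      rw [Pi.single_eq_of_ne (fun hc => hl (Fin.succAbove_right_injective hc)), zero_div]
    · simp
  have hVi : Vk h i = 0 := by
    rw [Vk, hD1, Finset.sum_eq_zero fun l _ => ?_, mul_zero]
    rw [Pi.single_eq_of_ne (Fin.succAbove_ne i l), zero_div]
  have hT : Tq h z = P * ∑ k, (z (i.succAbove k) / h' k) ^ 2 := by
    rw [Tq, Fin.sum_univ_succAbove _ i, hVi, zero_div, zero_mul, zero_add, Finset.mul_sum]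
    refine Finset.sum_congr rfl fun k _ => ?_
    rw [hVk, div_pow]
    have := hne k
    simp only [hh', Function.comp] at this ⊢
    field_simp
  rw [hD2, hT, hV, hD1]
  exact le_of_eq (by ring)

theorem sum_three (F : (Fin 3 → Bool) → ℝ) :
    ∑ e, F e = F ![true, true, true] + F ![false, false, false] +
      (F ![false, true, true] + F ![true, false, false]) +
      (F ![true, false, true] + F ![false, true, false]) +
      (F ![true, true, false] + F ![false, false, true]) := by
  have hz : ∀ (x y w : Bool) (d : Fin 0 → Bool),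
      Fin.cons x (Fin.cons y (Fin.cons w d)) = ![x, y, w] :=
    fun x y w d => by funext k; fin_cases k <;> rfl
  simp only [← (Fin.consEquiv fun _ : Fin 3 => Bool).sum_comp, Fintype.sum_prod_type,
    ← (Fin.consEquiv fun _ : Fin 2 => Bool).sum_comp,
    ← (Fin.consEquiv fun _ : Fin 1 => Bool).sum_comp, Fintype.sum_bool, Fintype.sum_unique,
    Fin.consEquiv, Equiv.coe_fn_mk, hz]
  ring

/-- The hexagon form with the sign `σ` of the first excess, the other two excesses positive. -/
theorem base3_signed {a b c x y z σ : ℝ} (ha : 0 < a) (hb : 0 < b) (hc : 0 < c)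
    (hB : b ≤ a + c) (hC : c ≤ a + b) (h1 : -1 ≤ σ) (h2 : σ ≤ 1)
    (hp : 0 < b + c - a → σ = 1) (hn : b + c - a < 0 → σ = -1) :
    (((x + y + z) ^ 2 - σ * (-x + y + z) ^ 2 - (x - y + z) ^ 2 - (x + y - z) ^ 2) +
        (((a + b + c) + |b + c - a| - (a + c - b) - (a + b - c)) * x ^ 2 / a +
          ((a + b + c) - |b + c - a| + (a + c - b) - (a + b - c)) * y ^ 2 / b +
          ((a + b + c) - |b + c - a| - (a + c - b) + (a + b - c)) * z ^ 2 / c)) *
      (((a + b + c) ^ 2 - (b + c - a) * |b + c - a| - (a + c - b) ^ 2 - (a + b - c) ^ 2) / 2) ≤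
    ((x + y + z) * (a + b + c) - (-x + y + z) * |b + c - a| - (x - y + z) * (a + c - b) -
      (x + y - z) * (a + b - c)) ^ 2 := by
  have act : 0 ≤ b + c - a → ∀ V, V = 2 * (a * b + a * c + b * c) - (a ^ 2 + b ^ 2 + c ^ 2) →
      0 < V → ((x + y + z) ^ 2 - (-x + y + z) ^ 2 - (x - y + z) ^ 2 - (x + y - z) ^ 2 +
        (2 * (b + c - a) * x ^ 2 / a + 2 * (a + c - b) * y ^ 2 / b +
          2 * (a + b - c) * z ^ 2 / c)) * V ≤
        (2 * (b + c - a) * x + 2 * (a + c - b) * y + 2 * (a + b - c) * z) ^ 2 :=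
    fun hA V hV hV0 => by
      have := base3_active (x := x) (y := y) (z := z) ha hb hc (by linarith) hB hC hV
      rw [sub_nonpos, le_div_iff₀ hV0] at this
      refine le_trans (le_of_eq ?_) this
      ring
  have inact : (4 * y * z * 2 + (4 * c * y ^ 2 / b + 4 * b * z ^ 2 / c)) * (4 * b * c) =
      (4 * c * y + 4 * b * z) ^ 2 := by
    field_simp
    ring
  rcases lt_trichotomy (b + c - a) 0 with h | h | h
  · rw [hn h, abs_of_neg h]
    refine le_of_eq (Eq.trans ?_ (inact.trans ?_))
    · ring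
    · ring
  · rw [h, abs_zero]
    have ea : a = b + c := by linarith
    have hact := act h.ge (4 * b * c) (by rw [ea]; ring) (by positivity)
    rw [h] at hact
    subst ea
    have e : 2 * (0 : ℝ) * x ^ 2 / (b + c) = 0 := by ring
    rw [e] at hact
    have m1 := mul_le_mul_of_nonneg_left hact (show (0 : ℝ) ≤ (1 + σ) / 2 by linarith)
    have m2 := mul_le_mul_of_nonneg_left inact.le (show (0 : ℝ) ≤ (1 - σ) / 2 by linarith)
    refine le_trans (le_of_eq ?_) ((add_le_add m1 m2).trans (le_of_eq ?_))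
    · ring
    · ring
  · rw [hp h, abs_of_pos h, one_mul]
    refine le_trans (le_of_eq ?_) ((act h.le _ rfl ?_).trans (le_of_eq ?_))
    · ring
    · have := mul_pos h (show (0 : ℝ) < a + c - b + (a + b - c) by linarith)
      nlinarith [mul_nonneg (show (0 : ℝ) ≤ a + c - b by linarith)
        (show (0 : ℝ) ≤ a + b - c by linarith)]
    · ring

theorem pp_pair_two (r : ℝ) : pp 2 r - pp 2 (-r) = r * |r| / 2 := by
  rcases lt_trichotomy r 0 with h | h | h
  · simp [pp, h, h.le, abs_of_neg h, not_lt.2 h.le]; ring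
  · simp [pp, h]
  · simp [pp, h, abs_of_pos h, not_lt.2 h.le]; ring

theorem pp_pair_one (r : ℝ) : pp 1 r + pp 1 (-r) = |r| := by
  rcases lt_trichotomy r 0 with h | h | h
  · simp [pp, h, abs_of_neg h, not_lt.2 h.le]
  · simp [pp, h]
  · simp [pp, h, abs_of_pos h, not_lt.2 h.le]

theorem pp_pair_zero (r : ℝ) : -1 ≤ pp 0 r - pp 0 (-r) ∧ pp 0 r - pp 0 (-r) ≤ 1 ∧
    (0 < r → pp 0 r - pp 0 (-r) = 1) ∧ (r < 0 → pp 0 r - pp 0 (-r) = -1) := by
  rcases lt_trichotomy r 0 with h | h | h
  · simp [pp, h, not_lt.2 h.le]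
  · simp [pp, h]
  · simp [pp, h, not_lt.2 h.le]

theorem baseThree : BaseThree := by
  intro h z hh
  set a := h 0
  set b := h 1
  set c := h 2
  have ha : 0 < a := hh 0
  have hb : 0 < b := hh 1
  have hc : 0 < c := hh 2
  have hS : 0 < a + b + c := by linarith
  have hV : V h = ((a + b + c) ^ 2 - (b + c - a) * |b + c - a| - (a + c - b) * |a + c - b| -
      (a + b - c) * |a + b - c|) / 2 := by
    have p : pp 2 (a + b + c) = (a + b + c) ^ 2 / 2 := by simp [pp, hS]
    have p' : pp 2 (-(a + b + c)) = 0 := by unfold pp; rw [if_neg (by linarith)]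
    unfold V G
    rw [sum_three]
    simp [par, lin, sg, Fin.sum_univ_three, Fin.prod_univ_three]
    have q1 := pp_pair_two (b + c - a)
    have q2 := pp_pair_two (a + c - b)
    have q3 := pp_pair_two (a + b - c)
    ring_nf at p p' q1 q2 q3 ⊢
    linarith
  have hD1 : ∀ y : Fin 3 → ℝ, D1 h y = (y 0 + y 1 + y 2) * (a + b + c) -
      (-y 0 + y 1 + y 2) * |b + c - a| - (y 0 - y 1 + y 2) * |a + c - b| -
      (y 0 + y 1 - y 2) * |a + b - c| := by
    intro y
    have p : pp 1 (a + b + c) = a + b + c := by simp [pp, hS]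
    have p' : pp 1 (-(a + b + c)) = 0 := by unfold pp; rw [if_neg (by linarith)]
    rw [← pp_pair_one (b + c - a), ← pp_pair_one (a + c - b), ← pp_pair_one (a + b - c)]
    unfold D1
    rw [sum_three]
    simp [par, lin, sg, Fin.sum_univ_three, Fin.prod_univ_three]
    ring_nf at p p' ⊢
    rw [p, p']
    ring
  have hD2 : D2 h z z = (z 0 + z 1 + z 2) ^ 2 -
      (pp 0 (b + c - a) - pp 0 (-(b + c - a))) * (-z 0 + z 1 + z 2) ^ 2 -
      (pp 0 (a + c - b) - pp 0 (-(a + c - b))) * (z 0 - z 1 + z 2) ^ 2 -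
      (pp 0 (a + b - c) - pp 0 (-(a + b - c))) * (z 0 + z 1 - z 2) ^ 2 := by
    have p : pp 0 (a + b + c) = 1 := by simp [pp, hS]
    have p' : pp 0 (-(a + b + c)) = 0 := by unfold pp; rw [if_neg (by linarith)]
    unfold D2
    rw [sum_three]
    simp [par, lin, sg, Fin.sum_univ_three, Fin.prod_univ_three]
    ring_nf at p p' ⊢
    rw [p, p']
    ring
  have hT : Tq h z = ((a + b + c) + |b + c - a| - |a + c - b| - |a + b - c|) * z 0 ^ 2 / a +
      ((a + b + c) - |b + c - a| + |a + c - b| - |a + b - c|) * z 1 ^ 2 / b +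
      ((a + b + c) - |b + c - a| - |a + c - b| + |a + b - c|) * z 2 ^ 2 / c := by
    simp only [Tq, Vk, hD1, Fin.sum_univ_three]
    simp
    ring
  rw [hD2, hT, hV, hD1]
  obtain ⟨r1, r2, r3, r4⟩ := pp_pair_zero (b + c - a)
  obtain ⟨s1, s2, s3, s4⟩ := pp_pair_zero (a + c - b)
  obtain ⟨t1, t2, t3, t4⟩ := pp_pair_zero (a + b - c)
  rcases le_or_gt (a + c - b) 0 with hB | hB
  · have hA : 0 < b + c - a := by linarith
    have hC : 0 < a + b - c := by linarith
    rw [r3 hA, t3 hC, abs_of_pos hA, abs_of_pos hC]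
    have := base3_signed (x := z 1) (y := z 0) (z := z 2)
      (σ := pp 0 (a + c - b) - pp 0 (-(a + c - b))) hb ha hc (by linarith) (by linarith) s1 s2 s3 s4
    refine le_trans (le_of_eq ?_) (this.trans (le_of_eq ?_))
    · ring
    · ring
  · rcases le_or_gt (a + b - c) 0 with hC | hC
    · have hA : 0 < b + c - a := by linarith
      rw [r3 hA, s3 hB, abs_of_pos hA, abs_of_pos hB]
      have := base3_signed (x := z 2) (y := z 1) (z := z 0)
        (σ := pp 0 (a + b - c) - pp 0 (-(a + b - c))) hc hb ha (by linarith) (by linarith) t1 t2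
        (fun h => t3 (by linarith)) (fun h => t4 (by linarith))
      rw [show b + a - c = a + b - c by ring] at this
      refine le_trans (le_of_eq ?_) (this.trans (le_of_eq ?_))
      · ring
      · ring
    · rw [s3 hB, t3 hC, abs_of_pos hB, abs_of_pos hC]
      have := base3_signed (x := z 0) (y := z 1) (z := z 2)
        (σ := pp 0 (b + c - a) - pp 0 (-(b + c - a))) ha hb hc (by linarith) (by linarith) r1 r2 r3 r4
      refine le_trans (le_of_eq ?_) (this.trans (le_of_eq ?_))
      · ring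
      · ring

end Vale.Agent.P227.Pairs.BaseE
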