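import Vale.Agent.P227.Pairs.Shape

/-!
P227: the volume of a body cut out by `d + 1` slabs is a scaled box spline value.
-/

namespace Vale.Agent.P227.Pairs

open MeasureTheory Finset
open scoped BigOperators ENNReal

namespace Bridge

/-- a box cut by a slab orthogonal to the diagonal, in coordinates -/
def boxSlab {m : ℕ} (h : Fin (m + 1) → ℝ) (x : ℝ) : Set (Fin m → ℝ) :=
  {y | (∀ i : Fin m, |y i| ≤ h i.castSucc) ∧ |x + ∑ i, y i| ≤ h (Fin.last m)}

lemma measurableSet_boxSlab {m : ℕ} (h : Fin (m + 1) → ℝ) (x : ℝ) :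
    MeasurableSet (boxSlab h x) := by
  unfold boxSlab
  simp only [Set.ofPred_and, Set.ofPred_forall]
  refine (MeasurableSet.iInter fun i => ?_).inter ?_
  · exact (isClosed_le (by fun_prop) continuous_const).measurableSet
  · exact (isClosed_le (by fun_prop) continuous_const).measurableSet

lemma volume_boxSlab_one (h : Fin 2 → ℝ) (hp : ∀ k, 0 < h k) (x : ℝ) :
    volume (boxSlab (m := 1) h x) = ENNReal.ofReal (G h x) := by
  have e := volume_preserving_funUnique (Fin 1) ℝ
  have hs : boxSlab (m := 1) h x = MeasurableEquiv.funUnique (Fin 1) ℝ ⁻¹'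
      Set.Icc (max (-h 0) (-x - h 1)) (min (h 0) (h 1 - x)) := by
    ext y
    simp only [boxSlab, Set.mem_ofPred_eq, Fin.forall_fin_one, Fin.castSucc_zero,
      Fin.sum_univ_one, show (Fin.last 1 : Fin 2) = 1 from rfl, Set.mem_preimage, Set.mem_Icc,
      MeasurableEquiv.funUnique_apply, Fin.default_eq_zero, max_le_iff, le_min_iff, abs_le]
    constructor <;> intro H <;> refine ⟨⟨?_, ?_⟩, ?_, ?_⟩ <;> linarith [H.1.1, H.1.2, H.2.1, H.2.2]
  refine (congrArg volume hs).trans
    ((e.measure_preimage measurableSet_Icc.nullMeasurableSet).trans ?_)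
  rw [Real.volume_Icc, Shape.G_two h (hp 0) (hp 1) x]
  rcases le_total 0 x with hx | hx <;>
    simp only [abs_of_nonneg, abs_of_nonpos, hx, max_def, min_def] <;>
    split_ifs <;>
    first
      | (congr 1; linarith [hp 0, hp 1])
      | (rw [ENNReal.ofReal_zero, ENNReal.ofReal_eq_zero]; linarith [hp 0, hp 1])

lemma volume_boxSlab : ∀ m, 1 ≤ m → ∀ (h : Fin (m + 1) → ℝ), (∀ k, 0 < h k) → ∀ x : ℝ,
    volume (boxSlab h x) = ENNReal.ofReal (G h x) := by
  intro m hm
  induction m, hm using Nat.le_induction with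
  | base => exact volume_boxSlab_one
  | succ m hm ih =>
    intro h hp x
    set h' : Fin (m + 1) → ℝ := h ∘ (0 : Fin (m + 2)).succAbove with hh'
    have hp' : ∀ k, 0 < h' k := fun k => hp _
    have hmp := (volume_preserving_piFinSuccAbove (fun _ : Fin (m + 1) => ℝ) 0).symm
    have hslice : ∀ s : ℝ, (Prod.mk s ⁻¹'
        ((MeasurableEquiv.piFinSuccAbove (fun _ : Fin (m + 1) => ℝ) 0).symm ⁻¹' boxSlab h x)) =
        if |s| ≤ h 0 then boxSlab h' (x + s) else ∅ := by
      intro s
      ext y
      simp only [Set.mem_preimage, boxSlab, Set.mem_ofPred_eq,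
        MeasurableEquiv.piFinSuccAbove_symm_apply, Fin.insertNthEquiv_apply, Fin.insertNth_zero',
        Fin.forall_fin_succ, Fin.sum_univ_succ, Fin.cons_zero, Fin.cons_succ, Fin.castSucc_zero]
      split_ifs with hs
      · simp [hh', hs, add_assoc]
      · simp [hs]
    rw [← hmp.measure_preimage (measurableSet_boxSlab h x).nullMeasurableSet,
      Measure.volume_eq_prod, Measure.prod_apply
        ((measurableSet_boxSlab h x).preimage hmp.measurable)]
    simp only [hslice]
    have hfun : (fun s : ℝ => volume (if |s| ≤ h 0 then boxSlab h' (x + s) else ∅)) =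
        (Set.Icc (-h 0) (h 0)).indicator fun s => ENNReal.ofReal (G h' (x + s)) := by
      funext s
      by_cases hs : |s| ≤ h 0
      · rw [if_pos hs, Set.indicator_of_mem (Set.mem_Icc.2 (abs_le.1 hs)), ih h' hp']
      · rw [if_neg hs, measure_empty, Set.indicator_of_notMem (show s ∉ Set.Icc (-h 0) (h 0) from fun H => hs (abs_le.2 H))]
    rw [hfun, lintegral_indicator measurableSet_Icc]
    have hc : Continuous fun s : ℝ => G h' (x + s) :=
      (Shape.continuous_G (by omega) h').comp (by fun_prop)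
    rw [← ofReal_integral_eq_lintegral_ofReal (hc.continuousOn.integrableOn_compact isCompact_Icc)
      (Filter.Eventually.of_forall fun s => (splineShape (m + 1) (by omega) h' hp').1 _)]
    congr 1
    rw [volRec (m + 1) (by omega) h 0 x, ← hh',
      intervalIntegral.integral_of_le (by linarith [hp 0]), ← integral_Icc_eq_integral_Ioc]

end Bridge

open Bridge in
/-- The body cut out by the `d + 1` slabs is a scaled box spline value. -/
theorem volumeBridge : VolumeBridge := by
  intro d hd u hu
  have hv : LinearIndependent ℝ (fun i : Fin d => u i.castSucc) := by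
    simpa [Fin.succAbove_last, Function.comp_def] using hu (Fin.last d)
  have : Nonempty (Fin d) := ⟨⟨0, by omega⟩⟩
  set b := basisOfLinearIndependentOfCardEqFinrank hv (by simp) with hb
  have hbv : ∀ i, b i = u i.castSucc := fun i => by
    rw [hb, coe_basisOfLinearIndependentOfCardEqFinrank]
  set α : Fin d → ℝ := fun i => b.repr (u (Fin.last d)) i with hα
  have hsum : ∑ i, α i • u i.castSucc = u (Fin.last d) := by
    simp_rw [← hbv]; exact b.sum_repr _
  have hα0 : ∀ i, α i ≠ 0 := by
    intro i hi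
    have hli := hu i.castSucc
    refine Fintype.not_linearIndependent_iff.2 ⟨fun k => (Fin.snoc α (-1) : Fin (d + 1) → ℝ)
      (i.castSucc.succAbove k), ?_, ?_⟩ hli
    · have h0 : ∑ k, (Fin.snoc α (-1) : Fin (d + 1) → ℝ) k • u k = 0 := by
        simp [Fin.sum_univ_castSucc, hsum]
      rw [Fin.sum_univ_succAbove _ i.castSucc] at h0
      simpa [hi] using h0
    · obtain ⟨k, hk⟩ := Fin.exists_succAbove_eq (Fin.castSucc_lt_last i).ne'
      exact ⟨k, by simp [hk]⟩
  let Φ : EuclideanSpace ℝ (Fin d) →ₗ[ℝ] (Fin d → ℝ) :=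
    { toFun := fun x i => α i * inner ℝ (u i.castSucc) x
      map_add' := fun x y => by funext i; simp [inner_add_right, mul_add]
      map_smul' := fun r x => by funext i; simp [inner_smul_right, mul_left_comm] }
  have hinj : Function.Injective Φ := by
    refine (injective_iff_map_eq_zero _).2 fun x hx => ?_
    refine inner_self_eq_zero.1 (?_ : inner ℝ x x = (0 : ℝ))
    rw [show inner ℝ x x = inner ℝ (∑ i, b.repr x i • b i) x by rw [b.sum_repr x], sum_inner]
    refine Finset.sum_eq_zero fun i _ => ?_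
    have hi : α i * inner ℝ (u i.castSucc) x = 0 := congrFun hx i
    rw [real_inner_smul_left, hbv, (mul_eq_zero.1 hi).resolve_left (hα0 i), mul_zero]
  let f : (Fin d → ℝ) ≃ₗ[ℝ] (Fin d → ℝ) :=
    LinearEquiv.ofInjectiveEndo (Φ ∘ₗ (WithLp.linearEquiv 2 ℝ (Fin d → ℝ)).symm.toLinearMap)
      (hinj.comp (LinearEquiv.injective _))
  refine ⟨|LinearMap.det (f.symm : (Fin d → ℝ) →ₗ[ℝ] (Fin d → ℝ))|,
    Fin.snoc (fun i => |α i|) 1, abs_pos.2 f.symm.isUnit_det'.ne_zero, fun k => ?_, fun a ha => ?_⟩
  · refine Fin.lastCases ?_ (fun i => ?_) k <;> simp [hα0]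
  set h : Fin (d + 1) → ℝ := fun k => (Fin.snoc (fun i => |α i|) 1 : Fin (d + 1) → ℝ) k * a k
    with hh
  have hp : ∀ k, 0 < h k := fun k => by
    refine Fin.lastCases ?_ (fun i => ?_) k <;> simp [hh, ha, hα0]
  have hset : {x : EuclideanSpace ℝ (Fin d) | ∀ k, |inner ℝ (u k) x| ≤ a k} =
      WithLp.ofLp ⁻¹' (f ⁻¹' boxSlab h 0) := by
    ext x
    have hfx : ∀ i, f (WithLp.ofLp x) i = α i * inner ℝ (u i.castSucc) x := fun i => rfl
    simp only [Set.mem_ofPred_eq, Set.mem_preimage, boxSlab, hfx, hh, Fin.snoc_castSucc,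
      Fin.snoc_last, one_mul, zero_add, abs_mul, Fin.forall_fin_succ']
    refine and_congr (forall_congr' fun i => ?_) ?_
    · rw [mul_le_mul_iff_right₀ (abs_pos.2 (hα0 i))]
    · rw [← hsum, sum_inner]
      simp_rw [real_inner_smul_left]
  have hm : MeasurableSet (f ⁻¹' boxSlab h 0) :=
    (measurableSet_boxSlab h 0).preimage f.toContinuousLinearEquiv.continuous.measurable
  rw [hset, (PiLp.volume_preserving_ofLp (Fin d)).measure_preimage hm.nullMeasurableSet,
    Measure.addHaar_preimage_linearEquiv, volume_boxSlab d (by omega) h hp 0,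
    ENNReal.toReal_mul, ENNReal.toReal_ofReal (abs_nonneg _),
    ENNReal.toReal_ofReal ((splineShape (d + 1) (by omega) h hp).1 0)]
  rfl

end Vale.Agent.P227.Pairs
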