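import Vale.Agent.P227.Pairs.Assembly

/-!
P227: the logarithmic Minkowski inequality for slab bodies against every symmetric body.
-/

noncomputable section

namespace Vale.Agent.P227.Pairs

open MeasureTheory Set Filter Topology
open scoped RealInnerProductSpace

theorem logMinkowski (hB : BaseThree) (hI : InactiveLocal) (hV : VolumeBridge) {d : ℕ} (hd : 3 ≤ d)
    {u : Fin (d + 1) → EuclideanSpace ℝ (Fin d)}
    (hu : ∀ j : Fin (d + 1), LinearIndependent ℝ (u ∘ j.succAbove))
    {a : Fin (d + 1) → ℝ} (ha : ∀ k, 0 < a k) :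
    ∃ C : Fin (d + 1) → ℝ,
      (∀ k, HasDerivAt (fun s => (volume (slabs u (Function.update a k s))).toReal) (C k) (a k)) ∧
      ∀ L : Set (EuclideanSpace ℝ (Fin d)), IsBody L →
        (volume (slabs u a)).toReal * Real.log ((volume L).toReal / (volume (slabs u a)).toReal)
          ≤ ∑ k, a k * C k * Real.log (supp L (u k) / a k) := by
  obtain ⟨K, c, hK, hc, hvol⟩ := hV d (by omega) u hu
  have hvol' : ∀ h : Fin (d + 1) → ℝ, (∀ k, 0 < h k) →
      (volume (slabs u h)).toReal = K * V (fun k => c k * h k) := hvol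
  set A : Fin (d + 1) → ℝ := fun k => c k * a k with hA
  have hA0 : ∀ k, 0 < A k := fun k => mul_pos (hc k) (ha k)
  refine ⟨fun k => K * D1 A (Pi.single k (c k)), fun k => ?_, fun L hL => ?_⟩
  · have hd' : HasDerivAt (fun s => V (fun l => c l * Function.update a k s l))
        (D1 A (Pi.single k (c k))) (a k) := by
      have h1 : ∀ l, HasDerivAt (fun s => c l * Function.update a k s l)
          ((Pi.single k (c k) : Fin (d + 1) → ℝ) l) (a k) := fun l => by
        by_cases hl : l = k
        · subst hl
          simpa using (hasDerivAt_id (a l)).const_mul (c l)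
        · simp only [Function.update_of_ne hl, Pi.single_eq_of_ne hl]
          exact hasDerivAt_const _ _
      simpa [Function.update_eq_self, hA] using
        ConcaveD.hasDerivAt_V (by omega) _ _ _ h1
    refine (hd'.const_mul K).congr_of_eventuallyEq ?_
    filter_upwards [eventually_gt_nhds (ha k)] with s hs
    refine hvol' _ fun l => ?_
    by_cases hl : l = k
    · subst hl; simpa using hs
    · simpa [Function.update_of_ne hl] using ha l
  set b : Fin (d + 1) → ℝ := fun k => supp L (u k) with hb
  have hb0 : ∀ k, 0 < b k := fun k => supp_pos hL (u_ne_zero (by omega) hu k)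
  set m : ℝ → Fin (d + 1) → ℝ := fun t k => c k * (a k * Real.exp (t * Real.log (b k / a k))) with hm
  have hm0 : ∀ t k, 0 < m t k := fun t k => mul_pos (hc k) (mul_pos (ha k) (Real.exp_pos _))
  have hpow : ∀ t k, a k ^ (1 - t) * b k ^ t = a k * Real.exp (t * Real.log (b k / a k)) := by
    intro t k
    rw [Real.rpow_def_of_pos (ha k), Real.rpow_def_of_pos (hb0 k), ← Real.exp_add,
      Real.log_div (hb0 k).ne' (ha k).ne']
    conv_rhs => arg 1; rw [← Real.exp_log (ha k)]
    rw [← Real.exp_add]
    congr 1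
    ring
  have hVpos : ∀ h : Fin (d + 1) → ℝ, (∀ k, 0 < h k) → 0 < V h := fun h hh =>
    ConcaveD.V_pos splineShape (by omega) h hh
  have hVA := hVpos A hA0
  have hm0eq : m 0 = A := by funext k; simp [hm, hA]
  set W : Fin (d + 1) → ℝ := fun k => A k * Real.log (b k / a k) with hW
  have hder : HasDerivAt (fun t => Real.log (V (m t))) (D1 A W / V A) 0 := by
    have h1 : ∀ k, HasDerivAt (fun t => m t k) (W k) 0 := fun k => by
      have h2 := (((hasDerivAt_id (0 : ℝ)).mul_const (Real.log (b k / a k))).exp.const_mul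
        (a k)).const_mul (c k)
      simp only [hm, hW, hA]
      refine h2.congr_deriv ?_
      simp
      ring
    have h3 := ConcaveD.hasDerivAt_V (show 3 ≤ d + 1 by omega) m W 0 h1
    rw [hm0eq] at h3
    have h4 := h3.log (by rw [hm0eq]; exact hVA.ne')
    rwa [hm0eq] at h4
  set VB := V (fun k => c k * b k) with hVB
  have hVB0 : 0 < VB := hVpos _ fun k => mul_pos (hc k) (hb0 k)
  have hslope : Real.log VB - Real.log (V A) ≤ D1 A W / V A := by
    refine ge_of_tendsto hder.tendsto_slope_zero_right ?_
    filter_upwards [Ioc_mem_nhdsGT (zero_lt_one' ℝ)] with t ht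
    have hC := slabLogConcave hB hI hV hd hu a b t ha hb0 ⟨ht.1.le, ht.2⟩
    rw [hvol' a ha, hvol' b hb0, hvol' _ fun k => mul_pos (Real.rpow_pos_of_pos (ha k) _)
      (Real.rpow_pos_of_pos (hb0 k) _)] at hC
    have hmt : (fun k => c k * (a k ^ (1 - t) * b k ^ t)) = m t := funext fun k => by rw [hpow]
    rw [hmt] at hC
    have h5 := Real.log_le_log (mul_pos (Real.rpow_pos_of_pos (mul_pos hK hVA) _)
      (Real.rpow_pos_of_pos (mul_pos hK hVB0) _)) hC
    rw [Real.log_mul (Real.rpow_pos_of_pos (mul_pos hK hVA) _).ne'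
      (Real.rpow_pos_of_pos (mul_pos hK hVB0) _).ne', Real.log_rpow (mul_pos hK hVA),
      Real.log_rpow (mul_pos hK hVB0), Real.log_mul hK.ne' hVA.ne', Real.log_mul hK.ne' hVB0.ne',
      Real.log_mul hK.ne' (hVpos _ (hm0 t)).ne'] at h5
    simp only [zero_add, hm0eq, smul_eq_mul]
    rw [inv_mul_eq_div, le_div_iff₀ ht.1]
    linarith
  have hsum : ∑ k, a k * (K * D1 A (Pi.single k (c k))) * Real.log (supp L (u k) / a k)
      = K * D1 A W := by
    have h6 : ∀ k, D1 A (Pi.single k (c k)) = c k * Vk A k := fun k => by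
      simp only [Vk, D1, Finset.mul_sum]
      refine Finset.sum_congr rfl fun e _ => ?_
      have : lin (Pi.single k (c k)) e = c k * lin (Pi.single k 1) e := by
        simp [lin, Pi.single_apply, mul_comm]
      rw [this]; ring
    rw [ConcaveD.D1_eq_sum_Vk, Finset.mul_sum]
    refine Finset.sum_congr rfl fun k _ => ?_
    rw [h6, hW, hA, hb]
    ring
  rw [hsum, hvol' a ha]
  have hL0 : 0 < (volume L).toReal :=
    ENNReal.toReal_pos (Measure.measure_pos_of_nonempty_interior _ hL.2.2.1).ne'
      hL.1.measure_lt_top.ne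
  have hLb : (volume L).toReal ≤ K * VB := by
    rw [hVB, ← hvol' b hb0]
    exact ENNReal.toReal_mono (slabs_ne_top hu _) (measure_mono (subset_slabs_supp hL))
  have h7 : Real.log ((volume L).toReal / (K * V A)) ≤ Real.log VB - Real.log (V A) := by
    rw [Real.log_div hL0.ne' (mul_pos hK hVA).ne', Real.log_mul hK.ne' hVA.ne']
    have := Real.log_le_log hL0 hLb
    rw [Real.log_mul hK.ne' hVB0.ne'] at this
    linarith
  have h8 := le_div_iff₀ hVA |>.1 (h7.trans hslope)
  calc K * V A * Real.log ((volume L).toReal / (K * V A))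
      = K * (Real.log ((volume L).toReal / (K * V A)) * V A) := by ring
    _ ≤ K * D1 A W := mul_le_mul_of_nonneg_left h8 hK.le

end Vale.Agent.P227.Pairs
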