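import Vale.Agent.P227.Pairs.Wulff

/-!
P227: the three assertions of the hand-in, as named statements.
-/

noncomputable section

namespace Vale.Agent.P227.Pairs

open MeasureTheory
open scoped RealInnerProductSpace

variable {d : ℕ}

/-- (1): two bodies against the slab body of the geometric means of their support values. -/
def PairIneq (u : Fin (d + 1) → EuclideanSpace ℝ (Fin d)) : Prop :=
  ∀ (K L : Set (EuclideanSpace ℝ (Fin d))) (t : ℝ), IsBody K → IsBody L → 0 ≤ t → t ≤ 1 →
    (volume K).toReal ^ (1 - t) * (volume L).toReal ^ t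
        ≤ (volume (slabs u fun k => supp K (u k) ^ (1 - t) * supp L (u k) ^ t)).toReal ∧
    (logComb K L t = slabs u (fun k => supp K (u k) ^ (1 - t) * supp L (u k) ^ t) →
      (volume K).toReal ^ (1 - t) * (volume L).toReal ^ t ≤ (volume (logComb K L t)).toReal)

/-- (2): the local form at the slab body, in midpoint form. -/
def LocalForm (u : Fin (d + 1) → EuclideanSpace ℝ (Fin d)) (a : Fin (d + 1) → ℝ) : Prop :=
  ∀ g : EuclideanSpace ℝ (Fin d) → ℝ, (∀ y, g (-y) = g y) →
    (volume (wulff fun y => supp (slabs u a) y * Real.exp (g y))).toReal *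
      (volume (wulff fun y => supp (slabs u a) y * Real.exp (-g y))).toReal
        ≤ (volume (slabs u a)).toReal ^ 2

/-- (3): `C` are the partial derivatives of the volume and the log-Minkowski inequality holds. -/
def LogMinkowskiIneq (u : Fin (d + 1) → EuclideanSpace ℝ (Fin d)) (a : Fin (d + 1) → ℝ) : Prop :=
  ∃ C : Fin (d + 1) → ℝ,
    (∀ k, HasDerivAt (fun s => (volume (slabs u (Function.update a k s))).toReal) (C k) (a k)) ∧
    ∀ L : Set (EuclideanSpace ℝ (Fin d)), IsBody L →
      (volume (slabs u a)).toReal * Real.log ((volume L).toReal / (volume (slabs u a)).toReal)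
        ≤ ∑ k, a k * C k * Real.log (supp L (u k) / a k)

end Vale.Agent.P227.Pairs
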