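import Vale.Agent.P227.Pairs.Pins

/-!
Block B: the merge identities and the eigenvalue gap.
-/

namespace Vale.Agent.P227.Pairs.StepB

open Finset
open scoped BigOperators

theorem sg_sq (b : Bool) : sg b * sg b = 1 := by cases b <;> simp [sg]

theorem lin_add {n : ℕ} (z y : Fin n → ℝ) (e : Fin n → Bool) :
    lin (z + y) e = lin z e + lin y e := by
  simp [lin, mul_add, Finset.sum_add_distrib]

theorem lin_single {n : ℕ} (k : Fin n) (e : Fin n → Bool) :
    lin (Pi.single k 1) e = sg (e k) := by
  simp [lin, Pi.single_apply]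

theorem lin_eq_sum {n : ℕ} (z : Fin n → ℝ) (e : Fin n → Bool) :
    lin z e = ∑ k, z k * lin (Pi.single k 1) e := by
  simp only [lin_single]
  simp only [lin, mul_comm]

theorem mul_pp (p : ℕ) (x : ℝ) : x * pp p x = (p + 1 : ℕ) * pp (p + 1) x := by
  unfold pp
  split_ifs
  · rw [Nat.factorial_succ, pow_succ]
    push_cast
    field_simp
  · simp

/-- splitting off the coordinate `j` and keeping the terms with equal signs at `i` and `j`. -/
theorem merge_sum {n : ℕ} (i : Fin n) (j : Fin (n + 1)) (F : (Fin (n + 1) → Bool) → ℝ) :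
    ∑ e, par e * (sg (e (j.succAbove i)) + sg (e j)) * F e =
      2 * ∑ e : Fin n → Bool, par e * F (j.insertNth (e i) e) := by
  rw [← Equiv.sum_comp (Fin.insertNthEquiv (fun _ => Bool) j), Fintype.sum_prod_type,
    Fintype.sum_bool, ← Finset.sum_add_distrib, Finset.mul_sum]
  refine Finset.sum_congr rfl fun e _ => ?_
  simp only [Fin.insertNthEquiv, Equiv.coe_fn_mk, par, Fin.prod_univ_succAbove _ j, Fin.insertNth_apply_same,
    Fin.insertNth_apply_succAbove]
  cases e i <;> simp [sg] <;> ring

theorem lin_insertNth {n : ℕ} (h : Fin (n + 1) → ℝ) (i : Fin n) (j : Fin (n + 1))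
    (e : Fin n → Bool) : lin h (j.insertNth (e i) e) = lin (merge h i j) e := by
  simp only [lin, merge, Fin.sum_univ_succAbove _ j, Fin.insertNth_apply_same,
    Fin.insertNth_apply_succAbove, mul_add, Finset.sum_add_distrib, mul_ite, mul_zero,
    Finset.sum_ite_eq', Finset.mem_univ, if_true]
  ring

/-- `e (j.succAbove i) + e j` as a direction. -/
noncomputable def pairDir {n : ℕ} (i j : Fin n) : Fin n → ℝ := Pi.single i 1 + Pi.single j 1

/-- third derivative of `V` -/
noncomputable def D3 {n : ℕ} (h z y : Fin n → ℝ) : ℝ :=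
  ∑ e : Fin n → Bool, par e * (lin z e * lin z e * lin y e) * pp (n - 4) (lin h e)

theorem lin_pairDir {n : ℕ} (i j : Fin n) (e : Fin n → Bool) :
    lin (pairDir i j) e = sg (e i) + sg (e j) := by
  rw [pairDir, lin_add, lin_single, lin_single]

theorem D1_merge {n : ℕ} (h : Fin (n + 1) → ℝ) (i : Fin n) (j : Fin (n + 1)) :
    D1 h (pairDir (j.succAbove i) j) = 2 * V (merge h i j) := by
  simp only [D1, V, G, lin_pairDir, zero_add, show n + 1 - 2 = n - 1 by omega]
  rw [merge_sum i j fun e => pp (n - 1) (lin h e)]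
  simp only [lin_insertNth]

theorem D2_merge {n : ℕ} (h z : Fin (n + 1) → ℝ) (i : Fin n) (j : Fin (n + 1)) :
    D2 h z (pairDir (j.succAbove i) j) = 2 * D1 (merge h i j) (merge z i j) := by
  simp only [D2, D1, lin_pairDir, show n + 1 - 3 = n - 2 by omega]
  have := merge_sum i j fun e => lin z e * pp (n - 2) (lin h e)
  simp only [lin_insertNth] at this
  refine (Finset.sum_congr rfl fun e _ => ?_).trans (this.trans (congrArg _
    (Finset.sum_congr rfl fun e _ => ?_))) <;> ring

theorem D3_merge {n : ℕ} (h z : Fin (n + 1) → ℝ) (i : Fin n) (j : Fin (n + 1)) :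
    D3 h z (pairDir (j.succAbove i) j) = 2 * D2 (merge h i j) (merge z i j) (merge z i j) := by
  simp only [D3, D2, lin_pairDir, show n + 1 - 4 = n - 3 by omega]
  have := merge_sum i j fun e => lin z e * lin z e * pp (n - 3) (lin h e)
  simp only [lin_insertNth] at this
  refine (Finset.sum_congr rfl fun e _ => ?_).trans (this.trans (congrArg _
    (Finset.sum_congr rfl fun e _ => ?_))) <;> ring

theorem merge_single {n : ℕ} (i k : Fin n) (j : Fin (n + 1)) :
    merge (Pi.single (j.succAbove k) (1 : ℝ)) i j = Pi.single k 1 := by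
  funext l
  simp [merge, Pi.single_apply, (Fin.succAbove_ne j k).symm]

theorem merge_single_self {n : ℕ} (i : Fin n) (j : Fin (n + 1)) :
    merge (Pi.single j (1 : ℝ)) i j = Pi.single i 1 := by
  funext l
  simp [merge, Pi.single_apply, Fin.succAbove_ne j l]

theorem D2_comm {n : ℕ} (h z y : Fin n → ℝ) : D2 h z y = D2 h y z := by
  simp only [D2]
  exact Finset.sum_congr rfl fun e _ => by ring

theorem D2_self (n : ℕ) (hn : 1 ≤ n - 2) (h z : Fin n → ℝ) :
    D2 h z h = ((n - 2 : ℕ) : ℝ) * D1 h z := by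
  simp only [D2, D1, Finset.mul_sum]
  refine Finset.sum_congr rfl fun e _ => ?_
  rw [show par e * (lin z e * lin h e) * pp (n - 3) (lin h e) =
    par e * lin z e * (lin h e * pp (n - 3) (lin h e)) by ring, mul_pp,
    show n - 3 + 1 = n - 2 by omega]
  ring

/-- Every point of the closed cone is a combination of `e a + e b`. -/
theorem exists_weights : ∀ (n : ℕ), 3 ≤ n → ∀ h : Fin n → ℝ, (∀ k, 0 < h k) →
    (∀ k, 2 * h k ≤ ∑ l, h l) →
    ∃ w : Fin n → Fin n → ℝ, (∀ a b, 0 ≤ w a b) ∧ (∀ a b, w a b = w b a) ∧ (∀ a, w a a = 0) ∧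
      ∀ a, ∑ b, w a b = h a := by
  intro n hn
  induction n, hn using Nat.le_induction with
  | base =>
    intro h hp hle
    refine ⟨fun a b => if a = b then 0 else h a + h b - (∑ l, h l) / 2, ?_, ?_, by simp, ?_⟩
    · intro a b
      have := hle 0; have := hle 1; have := hle 2
      simp only [Fin.sum_univ_three] at *
      fin_cases a <;> fin_cases b <;> simp <;> linarith
    · intro a b
      by_cases hab : a = b
      · simp [hab]
      · simp [hab, Ne.symm hab, add_comm]
    · intro a
      simp only [Fin.sum_univ_three]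
      fin_cases a <;> simp <;> ring
  | succ n hn ih =>
    intro h hp hle
    -- two coordinates whose sum is at most half of the total
    obtain ⟨j, -, hj⟩ := Finset.exists_min_image (univ : Finset (Fin (n + 1))) h univ_nonempty
    have : Nonempty (Fin n) := ⟨⟨0, by omega⟩⟩
    obtain ⟨i, -, hi⟩ := Finset.exists_min_image (univ : Finset (Fin n))
      (h ∘ j.succAbove) univ_nonempty
    have hS : ∑ l, h l = h j + ∑ k, h (j.succAbove k) := Fin.sum_univ_succAbove _ j
    have hS' : ∑ k, merge h i j k = ∑ l, h l := by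
      simp [merge, Finset.sum_add_distrib, hS, add_comm]
    have hp' : ∀ k, 0 < merge h i j k := fun k => by
      unfold merge
      split_ifs <;> linarith [hp (j.succAbove k), hp j]
    have hle' : ∀ k, 2 * merge h i j k ≤ ∑ l, merge h i j l := by
      intro k
      rw [hS']
      unfold merge
      split_ifs with hk
      · subst hk
        have h1 : (n : ℝ) * h (j.succAbove k) ≤ ∑ l, h (j.succAbove l) := by
          have := Finset.card_nsmul_le_sum (univ : Finset (Fin n)) (fun l => h (j.succAbove l))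
            (h (j.succAbove k)) (fun l hl => hi l hl)
          simpa using this
        have h3 : (3 : ℝ) ≤ n := by exact_mod_cast hn
        have h2 := hj (j.succAbove k) (mem_univ _)
        nlinarith [hp (j.succAbove k), hp j]
      · rw [add_zero]; exact hle _
    obtain ⟨w, hw0, hws, hwd, hwsum⟩ := ih (merge h i j) hp' hle'
    let φ : Fin (n + 1) → Fin n := j.insertNth (α := fun _ => Fin n) i id
    let ρ : Fin (n + 1) → ℝ := fun a => h a / merge h i j (φ a)
    have hρ : ∀ a, 0 ≤ ρ a := fun a => div_nonneg (hp a).le (hp' _).le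
    refine ⟨fun a b => ρ a * ρ b * w (φ a) (φ b),
      fun a b => mul_nonneg (mul_nonneg (hρ a) (hρ b)) (hw0 _ _),
      fun a b => by simp only [hws (φ a) (φ b)]; ring, fun a => by simp [hwd], fun a => ?_⟩
    have hb : ∑ b, ρ a * ρ b * w (φ a) (φ b) = ρ a * ∑ k, w (φ a) k := by
      simp only [mul_assoc, ← Finset.mul_sum]
      congr 1
      rw [Fin.sum_univ_succAbove _ j]
      simp only [ρ, φ, Fin.insertNth_apply_same, Fin.insertNth_apply_succAbove, id_eq]
      rw [← Finset.add_sum_erase _ _ (mem_univ i), ← Finset.add_sum_erase _ (fun k => w _ k)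
        (mem_univ i), ← add_assoc]
      congr 1
      · have hm := (hp' i).ne'
        have he : merge h i j i = h (j.succAbove i) + h j := by simp [merge]
        field_simp
        rw [he]; ring
      · refine Finset.sum_congr rfl fun k hk => ?_
        have he : merge h i j k = h (j.succAbove k) := by simp [merge, Finset.ne_of_mem_erase hk]
        rw [he, div_self (hp _).ne', one_mul]
    rw [hb, hwsum]
    exact div_mul_cancel₀ _ (hp' _).ne'

theorem sum_weights {n : ℕ} {h : Fin n → ℝ} {w : Fin n → Fin n → ℝ}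
    (hs : ∀ a b, w a b = w b a) (hw : ∀ a, ∑ b, w a b = h a) (F : (Fin n → Bool) → ℝ) :
    ∑ a, ∑ b, w a b * (∑ e, lin (pairDir a b) e * F e) = 2 * ∑ e, lin h e * F e := by
  have h1 : ∀ G : Fin n → ℝ, ∑ a, ∑ b, w a b * (G a + G b) = 2 * ∑ a, h a * G a := fun G => by
    have hc : ∀ b, ∑ a, w a b = h b := fun b => by
      rw [← hw b]; exact Finset.sum_congr rfl fun a _ => hs a b
    simp only [mul_add, Finset.sum_add_distrib]
    rw [Finset.sum_comm (f := fun a b => w a b * G b)]
    simp only [← Finset.sum_mul, hw, hc]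
    ring
  have h2 : ∀ a b, ∑ e, lin (pairDir a b) e * F e
      = (∑ e, sg (e a) * F e) + ∑ e, sg (e b) * F e := fun a b => by
    simp only [lin_pairDir, add_mul, Finset.sum_add_distrib]
  simp only [h2]
  rw [h1 fun a => ∑ e, sg (e a) * F e]
  congr 1
  simp only [Finset.mul_sum, lin, Finset.sum_mul]
  rw [Finset.sum_comm]
  exact Finset.sum_congr rfl fun e _ => Finset.sum_congr rfl fun a _ => by ring

theorem pair_alg {K A B ha hb za zb lam D T : ℝ} (hA : 0 < A) (hB : 0 < B) (hha : 0 < ha)
    (hhb : 0 < hb) (hKa : hb * K ≤ A) (hKb : ha * K ≤ B) (hl : lam ^ 2 ≤ 1)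
    (h1 : D + T ≤ (lam * (A / ha * za) + lam * (B / hb * zb)) ^ 2 / (A + B)) :
    D + (T + K * (za ^ 2 / ha + zb ^ 2 / hb - (za + zb) ^ 2 / (ha + hb)))
      ≤ A * (za / ha) ^ 2 + B * (zb / hb) ^ 2 := by
  obtain ⟨x, rfl⟩ : ∃ x, za = x * ha := ⟨za / ha, (div_mul_cancel₀ _ hha.ne').symm⟩
  obtain ⟨y, rfl⟩ : ∃ y, zb = y * hb := ⟨zb / hb, (div_mul_cancel₀ _ hhb.ne').symm⟩
  have hab0 : 0 < A + B := add_pos hA hB
  have hab1 : 0 < ha + hb := add_pos hha hhb
  have e1 : (lam * (A / ha * (x * ha)) + lam * (B / hb * (y * hb))) ^ 2 / (A + B)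
      = lam ^ 2 * (A * x ^ 2 + B * y ^ 2 - A * B / (A + B) * (x - y) ^ 2) := by
    field_simp
    ring
  have e2 : K * ((x * ha) ^ 2 / ha + (y * hb) ^ 2 / hb - (x * ha + y * hb) ^ 2 / (ha + hb))
      = K * ha * hb / (ha + hb) * (x - y) ^ 2 := by
    field_simp
    ring
  have e3 : K * ha * hb / (ha + hb) ≤ A * B / (A + B) := by
    rw [div_le_div_iff₀ hab1 hab0]
    nlinarith [mul_le_mul_of_nonneg_left hKa (mul_nonneg hha.le hB.le),
      mul_le_mul_of_nonneg_left hKb (mul_nonneg hhb.le hA.le)]
  have e4 : A * B / (A + B) * (x - y) ^ 2 ≤ A * x ^ 2 + B * y ^ 2 := by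
    rw [div_mul_eq_mul_div, div_le_iff₀ hab0]
    nlinarith [sq_nonneg (A * x + B * y)]
  rw [e1] at h1
  rw [e2, mul_div_cancel_right₀ _ hha.ne', mul_div_cancel_right₀ _ hhb.ne']
  nlinarith [mul_le_mul_of_nonneg_right e3 (sq_nonneg (x - y)),
    mul_le_mul_of_nonneg_left e4 (sub_nonneg.2 hl)]

theorem D2_add_right {n : ℕ} (h z y y' : Fin n → ℝ) :
    D2 h z (y + y') = D2 h z y + D2 h z y' := by
  simp only [D2, lin_add, ← Finset.sum_add_distrib]
  exact Finset.sum_congr rfl fun e _ => by ring

theorem D1_add {n : ℕ} (h y y' : Fin n → ℝ) : D1 h (y + y') = D1 h y + D1 h y' := by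
  simp only [D1, lin_add, ← Finset.sum_add_distrib]
  exact Finset.sum_congr rfl fun e _ => by ring

theorem Tq_merge {n : ℕ} (h z : Fin (n + 1) → ℝ) (i : Fin n) (b : Fin (n + 1)) :
    ∑ k, z k ^ 2 / h k * D2 h (Pi.single k 1) (pairDir (b.succAbove i) b)
      = 2 * Tq (merge h i b) (merge z i b) + D2 h (Pi.single (b.succAbove i) 1)
          (pairDir (b.succAbove i) b) * (z (b.succAbove i) ^ 2 / h (b.succAbove i) + z b ^ 2 / h b
        - (z (b.succAbove i) + z b) ^ 2 / (h (b.succAbove i) + h b)) := by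
  have hk : ∀ k, D2 h (Pi.single (b.succAbove k) 1) (pairDir (b.succAbove i) b)
      = 2 * Vk (merge h i b) k := fun k => by
    rw [D2_merge, merge_single, Vk]
  have hb : D2 h (Pi.single b 1) (pairDir (b.succAbove i) b) = 2 * Vk (merge h i b) i := by
    rw [D2_merge, merge_single_self, Vk]
  have hrest : ∀ k ∈ (univ : Finset (Fin n)).erase i,
      z (b.succAbove k) ^ 2 / h (b.succAbove k) * (2 * Vk (merge h i b) k)
        = 2 * (Vk (merge h i b) k / merge h i b k * merge z i b k ^ 2) := fun k hk => by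
    simp only [merge, if_neg (Finset.ne_of_mem_erase hk), add_zero]
    ring
  simp only [Fin.sum_univ_succAbove _ b, hb, hk, Tq, Finset.mul_sum]
  rw [← Finset.add_sum_erase _ _ (mem_univ i), ← Finset.add_sum_erase (univ : Finset (Fin n))
    (fun k => 2 * (Vk (merge h i b) k / merge h i b k * merge z i b k ^ 2)) (mem_univ i),
    Finset.sum_congr rfl hrest]
  have e1 : merge h i b i = h (b.succAbove i) + h b := by simp [merge]
  have e2 : merge z i b i = z (b.succAbove i) + z b := by simp [merge]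
  rw [e1, e2]
  ring

theorem pair_le (hshape : SplineShape) (hfirst : FirstPartial) (hkey : KeyBound) {n : ℕ}
    (hn : 3 ≤ n) (hloc : Local n) {h z : Fin (n + 1) → ℝ} {lam : ℝ} (hact : Active h)
    (hl : lam ^ 2 ≤ 1) (heig : ∀ k, D2 h z (Pi.single k 1) = lam * (Vk h k / h k * z k))
    (a b : Fin (n + 1)) (hab : a ≠ b) :
    D3 h z (pairDir a b) + ∑ k, z k ^ 2 / h k * D2 h (Pi.single k 1) (pairDir a b)
      ≤ Vk h a * (z a / h a) ^ 2 + Vk h b * (z b / h b) ^ 2 := by
  obtain ⟨i, rfl⟩ := Fin.exists_succAbove_eq hab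
  have hp := hact.1
  have hVp : ∀ k, 0 < Vk h k := fun k => (hfirst n (by omega) h k hp).2.2 hact
  have hp' : ∀ k, 0 < merge h i b k := fun k => by
    simp only [merge]
    split_ifs <;> linarith [hp (b.succAbove k), hp b]
  have hV' : 0 < V (merge h i b) := by
    have : Nonempty (Fin n) := ⟨i⟩
    exact (hshape n (by omega) _ hp').2.2.2.1 0
      (by simpa using Finset.sum_pos (fun k _ => hp' k) univ_nonempty)
  have hL := hloc (merge h i b) (merge z i b) hp'
  have hKa := (hkey n hn h _ _ hab hp).2.1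
  have hKb := (hkey n hn h _ _ (Ne.symm hab) hp).2.1
  have hcomm : (Pi.single b 1 + Pi.single (b.succAbove i) 1 : Fin (n + 1) → ℝ)
      = pairDir (b.succAbove i) b := add_comm _ _
  rw [hcomm] at hKb
  have hKeq : D2 h (Pi.single b 1) (pairDir (b.succAbove i) b)
      = D2 h (Pi.single (b.succAbove i) 1) (pairDir (b.succAbove i) b) := by
    rw [D2_merge, D2_merge, merge_single, merge_single_self]
  rw [hKeq] at hKb
  have hsum : Vk h (b.succAbove i) + Vk h b = 2 * V (merge h i b) := by
    rw [← D1_merge, pairDir, D1_add]; rfl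
  have hg : 2 * D1 (merge h i b) (merge z i b) = lam * (Vk h (b.succAbove i) / h (b.succAbove i)
      * z (b.succAbove i)) + lam * (Vk h b / h b * z b) := by
    rw [← D2_merge, ← heig, ← heig, pairDir, D2_add_right]
  rw [D3_merge, Tq_merge]
  refine pair_alg (hVp _) (hVp b) (hp _) (hp b) hKa hKb hl ?_
  rw [← hg, hsum, le_div_iff₀ (by positivity)]
  nlinarith

theorem eigenGap_of (hshape : SplineShape) (hfirst : FirstPartial) (hkey : KeyBound) : EigenGap := by
  intro n hn hloc h z lam hact hz heig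
  by_contra hcon
  push Not at hcon
  obtain ⟨hl1, hl0⟩ := hcon
  have hl2 : lam ^ 2 ≤ 1 := by nlinarith
  have hp := hact.1
  have hVp : ∀ k, 0 < Vk h k := fun k => (hfirst n (by omega) h k hp).2.2 hact
  obtain ⟨w, hw0, hws, hwd, hwsum⟩ := exists_weights (n + 1) (by omega) h hp fun k => (hact.2 k).le
  have h3 : ∑ a, ∑ b, w a b * D3 h z (pairDir a b) = 2 * ((n - 2 : ℕ) : ℝ) * D2 h z z := by
    have := sum_weights hws hwsum
      fun e => par e * (lin z e * lin z e) * pp (n + 1 - 4) (lin h e)
    refine Eq.trans ?_ (this.trans ?_)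
    · refine Finset.sum_congr rfl fun a _ => Finset.sum_congr rfl fun b _ => ?_
      congr 1
      exact Finset.sum_congr rfl fun e _ => by ring
    · rw [D2, mul_assoc]
      congr 1
      rw [Finset.mul_sum]
      refine Finset.sum_congr rfl fun e _ => ?_
      rw [show lin h e * (par e * (lin z e * lin z e) * pp (n + 1 - 4) (lin h e))
        = par e * (lin z e * lin z e) * (lin h e * pp (n + 1 - 4) (lin h e)) by ring, mul_pp,
        show n + 1 - 4 + 1 = n + 1 - 3 by omega, show n + 1 - 3 = n - 2 by omega]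
      ring
  have hk : ∀ k, ∑ a, ∑ b, w a b * D2 h (Pi.single k 1) (pairDir a b)
      = 2 * (((n - 1 : ℕ) : ℝ) * Vk h k) := fun k => by
    have := sum_weights hws hwsum
      fun e => par e * lin (Pi.single k 1) e * pp (n + 1 - 3) (lin h e)
    rw [Vk, show n - 1 = n + 1 - 2 by omega, ← D2_self (n + 1) (by omega)]
    refine Eq.trans ?_ (this.trans ?_)
    · refine Finset.sum_congr rfl fun a _ => Finset.sum_congr rfl fun b _ => ?_
      congr 1
      exact Finset.sum_congr rfl fun e _ => by ring
    · congr 1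
      exact Finset.sum_congr rfl fun e _ => by ring
  have hP2 : ∑ a, ∑ b, w a b * (∑ k, z k ^ 2 / h k * D2 h (Pi.single k 1) (pairDir a b))
      = 2 * ((n - 1 : ℕ) : ℝ) * Tq h z := by
    calc _ = ∑ k, z k ^ 2 / h k * ∑ a, ∑ b, w a b * D2 h (Pi.single k 1) (pairDir a b) := by
          simp only [Finset.mul_sum]
          rw [Finset.sum_congr rfl fun a _ => Finset.sum_comm, Finset.sum_comm]
          exact Finset.sum_congr rfl fun k _ => Finset.sum_congr rfl fun a _ =>
            Finset.sum_congr rfl fun b _ => by ring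
      _ = _ := by
          simp only [hk, Tq, Finset.mul_sum]
          exact Finset.sum_congr rfl fun k _ => by ring
  have hS2 : ∑ a, ∑ b, w a b * (Vk h a * (z a / h a) ^ 2 + Vk h b * (z b / h b) ^ 2)
      = 2 * Tq h z := by
    have hc : ∀ b, ∑ a, w a b = h b := fun b => by
      rw [← hwsum b]; exact Finset.sum_congr rfl fun a _ => hws a b
    simp only [mul_add, Finset.sum_add_distrib]
    rw [Finset.sum_comm (f := fun a b => w a b * (Vk h b * (z b / h b) ^ 2))]
    simp only [← Finset.sum_mul, hwsum, hc]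
    rw [Tq, ← two_mul, Finset.mul_sum, Finset.mul_sum]
    refine Finset.sum_congr rfl fun k _ => ?_
    have := (hp k).ne'
    field_simp
  have hA : D2 h z z = lam * Tq h z := by
    calc D2 h z z = ∑ k, z k * D2 h z (Pi.single k 1) := by
          simp only [D2, Finset.mul_sum]
          rw [Finset.sum_comm]
          refine Finset.sum_congr rfl fun ee _ => ?_
          conv_lhs => arg 1; arg 2; arg 2; rw [lin_eq_sum z ee]
          simp only [Finset.mul_sum, Finset.sum_mul]
          exact Finset.sum_congr rfl fun k _ => by ring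
      _ = lam * Tq h z := by
          simp only [heig, Tq, Finset.mul_sum]
          exact Finset.sum_congr rfl fun k _ => by ring
  have hle : ∑ a, ∑ b, w a b * D3 h z (pairDir a b)
      + ∑ a, ∑ b, w a b * (∑ k, z k ^ 2 / h k * D2 h (Pi.single k 1) (pairDir a b))
      ≤ ∑ a, ∑ b, w a b * (Vk h a * (z a / h a) ^ 2 + Vk h b * (z b / h b) ^ 2) := by
    simp only [← Finset.sum_add_distrib, ← mul_add]
    refine Finset.sum_le_sum fun a _ => Finset.sum_le_sum fun b _ => ?_
    by_cases hab : a = b
    · subst hab; simp [hwd]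
    · exact mul_le_mul_of_nonneg_left (pair_le hshape hfirst hkey hn hloc hact hl2 heig a b hab)
        (hw0 a b)
  rw [h3, hP2, hS2, hA] at hle
  have hTp : 0 < Tq h z := by
    obtain ⟨k, hk⟩ := Function.ne_iff.1 hz
    exact Finset.sum_pos' (fun l _ => mul_nonneg (div_nonneg (hVp l).le (hp l).le) (sq_nonneg _))
      ⟨k, mem_univ _, mul_pos (div_pos (hVp k) (hp k)) (pow_two_pos_of_ne_zero hk)⟩
  have hn2 : ((n - 1 : ℕ) : ℝ) = ((n - 2 : ℕ) : ℝ) + 1 := by
    rw [show n - 1 = n - 2 + 1 by omega]; push_cast; ring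
  have hn3 : (1 : ℝ) ≤ ((n - 2 : ℕ) : ℝ) := by
    exact_mod_cast (show 1 ≤ n - 2 by omega)
  rw [hn2] at hle
  nlinarith [mul_pos (mul_pos (show (0 : ℝ) < 1 + lam by linarith) hTp)
    (show (0 : ℝ) < ((n - 2 : ℕ) : ℝ) by linarith)]

end Vale.Agent.P227.Pairs.StepB
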